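import Vale.Agent.P063.H601.Second

/-!
# Duality and amplification (independent copies)
-/

set_option autoImplicit false

namespace Vale.Agent.P063.H601

open Finset Vale.Agent.P063

section op

variable {ι : Type*} [Fintype ι] [DecidableEq ι]

/-- expectation of a function of two independent configurations combined coordinatewise -/
lemma Ex_op {p p' s : ℝ} (op : Bool → Bool → Bool)
    (hop : ∀ z : Bool, wt s z
      = ∑ ab : Bool × Bool, if op ab.1 ab.2 = z then wt p ab.1 * wt p' ab.2 else 0)
    (f : (ι → Bool) → ℝ) :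
    Ex s f = Ex p (fun x => Ex p' (fun y => f (fun i => op (x i) (y i)))) := by
  have e1 : ∀ z : ι → Bool, W s z
      = ∑ w : ι → Bool × Bool, if (fun i => op (w i).1 (w i).2) = z
          then ∏ i, (wt p (w i).1 * wt p' (w i).2) else 0 := by
    intro z
    unfold W
    rw [Finset.prod_congr rfl (fun i _ => hop (z i))]
    have h := Finset.prod_univ_sum (fun _ : ι => (Finset.univ : Finset (Bool × Bool)))
      (fun i ab => if op ab.1 ab.2 = z i then wt p ab.1 * wt p' ab.2 else 0)
    rw [Fintype.piFinset_univ] at h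
    rw [h]
    refine Finset.sum_congr rfl fun w _ => ?_
    by_cases hw : (fun i => op (w i).1 (w i).2) = z
    · rw [if_pos hw]
      refine Finset.prod_congr rfl fun i _ => ?_
      rw [if_pos (congrFun hw i)]
    · rw [if_neg hw]
      obtain ⟨i, hi⟩ : ∃ i, op (w i).1 (w i).2 ≠ z i := by
        by_contra hc
        push Not at hc
        exact hw (funext hc)
      exact Finset.prod_eq_zero (Finset.mem_univ i) (if_neg hi)
  have e2 : Ex s f = ∑ w : ι → Bool × Bool,
      (∏ i, (wt p (w i).1 * wt p' (w i).2)) * f (fun i => op (w i).1 (w i).2) := by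
    unfold Ex
    simp only [e1, Finset.sum_mul]
    rw [Finset.sum_comm]
    refine Finset.sum_congr rfl fun w _ => ?_
    simp only [ite_mul, zero_mul]
    rw [Finset.sum_ite_eq]
    simp
  rw [e2]
  have e3 : Ex p (fun x => Ex p' (fun y => f (fun i => op (x i) (y i))))
      = ∑ xy : (ι → Bool) × (ι → Bool),
        (∏ i, (wt p (xy.1 i) * wt p' (xy.2 i))) * f (fun i => op (xy.1 i) (xy.2 i)) := by
    rw [Fintype.sum_prod_type]
    unfold Ex W
    refine Finset.sum_congr rfl fun x _ => ?_
    rw [Finset.mul_sum]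
    refine Finset.sum_congr rfl fun y _ => ?_
    rw [Finset.prod_mul_distrib]
    ring
  rw [e3]
  exact Fintype.sum_equiv (Equiv.arrowProdEquivProdArrow ι (fun _ => Bool) (fun _ => Bool)) _ _
    (fun w => rfl)

/-- complementing all coordinates -/
lemma Ex_not (p : ℝ) (f : (ι → Bool) → ℝ) :
    Ex p (fun x => f (fun i => !x i)) = Ex (1 - p) f := by
  unfold Ex
  have hinv : Function.Involutive (fun (x : ι → Bool) (i : ι) => !x i) := by
    intro x
    funext i
    simp
  refine Fintype.sum_equiv hinv.toPerm _ _ ?_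
  intro x
  have h1 : W p x = W (1 - p) (fun i => !x i) := by
    unfold W
    refine Finset.prod_congr rfl fun i _ => ?_
    show wt p (x i) = wt (1 - p) (!x i)
    cases x i <;> simp [wt]
  rw [h1]
  rfl

end op

section dual

variable {n r : ℕ}

/-- the dual of a family of hypergraphs -/
def dual (P : Set (Edge n r → Bool)) : Set (Edge n r → Bool) :=
  {x | (fun e => !x e) ∉ P}

lemma dual_property {P : Set (Edge n r → Bool)} (hP : IsProperty P) : IsProperty (dual P) := by
  intro s x
  unfold dual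
  simp only [Set.mem_ofPred_eq]
  exact not_congr (hP s (fun e => !x e))

lemma dual_upper {P : Set (Edge n r → Bool)} (hP : IsUpperSet P) : IsUpperSet (dual P) := by
  intro x y hxy hx hy
  apply hx
  refine hP ?_ hy
  intro e
  have h := hxy e
  show (!y e) ≤ (!x e)
  revert h
  cases x e <;> cases y e <;> simp

lemma dual_nonempty {P : Set (Edge n r → Bool)} (hne' : P ≠ Set.univ) : (dual P).Nonempty := by
  obtain ⟨x, hx⟩ : ∃ x, x ∉ P := by
    by_contra hc
    push Not at hc
    exact hne' (Set.eq_univ_of_forall hc)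
  refine ⟨fun e => !x e, ?_⟩
  unfold dual
  simp only [Set.mem_ofPred_eq, Bool.not_not]
  exact hx

lemma dual_ne_univ {P : Set (Edge n r → Bool)} (hne : P.Nonempty) : dual P ≠ Set.univ := by
  obtain ⟨x, hx⟩ := hne
  intro h
  have : (fun e => !x e) ∈ dual P := by rw [h]; trivial
  unfold dual at this
  simp only [Set.mem_ofPred_eq, Bool.not_not] at this
  exact this hx

lemma mu_dual (p : ℝ) (P : Set (Edge n r → Bool)) : mu p (dual P) = 1 - mu (1 - p) P := by
  rw [mu_eq, mu_eq, ← Ex_not p (ind P)]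
  have e : ind (dual P) = fun x => (1:ℝ) - ind P (fun e => !x e) := by
    funext x
    unfold ind
    by_cases h : (fun e => !x e) ∈ P
    · rw [if_pos h, if_neg (fun hc : x ∈ dual P => hc h)]; norm_num
    · rw [if_neg h, if_pos (show x ∈ dual P from h)]; norm_num
  rw [e, Ex_sub, Ex_const]

lemma mu_pos {P : Set (Edge n r → Bool)} (hP : IsUpperSet P) (hne : P.Nonempty) {p : ℝ}
    (h0 : 0 < p) (h1 : p ≤ 1) : 0 < mu p P := by
  obtain ⟨x0, hx0⟩ := hne
  have htop : (fun _ => true) ∈ P := hP (fun e => Bool.le_true (x0 e)) hx0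
  unfold mu
  refine Finset.sum_pos' ?_ ⟨fun _ => true, Finset.mem_univ _, ?_⟩
  · intro x _
    split_ifs
    · refine Finset.prod_nonneg fun e _ => ?_
      split_ifs
      · exact h0.le
      · linarith only [h1]
    · exact le_refl _
  · rw [if_pos htop]
    refine Finset.prod_pos fun e _ => ?_
    rw [if_pos rfl]
    exact h0

lemma mu_lt_one {P : Set (Edge n r → Bool)} (hP : IsUpperSet P) (hne' : P ≠ Set.univ) {p : ℝ}
    (h0 : 0 ≤ p) (h1 : p < 1) : mu p P < 1 := by
  have h := mu_pos (dual_upper hP) (dual_nonempty hne') (p := 1 - p) (by linarith only [h1])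
    (by linarith only [h0])
  rw [mu_dual, sub_sub_cancel] at h
  linarith only [h]

lemma mu_strict {P : Set (Edge n r → Bool)} (hP : IsUpperSet P) (hne : P.Nonempty)
    (hne' : P ≠ Set.univ) : StrictMonoOn (fun p => mu p P) (Set.Icc 0 1) := by
  refine strictMonoOn_of_deriv_pos (convex_Icc 0 1) (mu_continuous P).continuousOn ?_
  intro p hp
  rw [interior_Icc] at hp
  rw [(H291.mu_russo hP hp.1 hp.2).deriv]
  have h1 := mu_pos hP hne hp.1 hp.2.le
  have h2 := mu_lt_one hP hne' hp.1.le hp.2
  have h3 := poincare hp.1 hp.2 P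
  have h4 : 0 < mu p P * (1 - mu p P) := mul_pos h1 (by linarith only [h2])
  have h5 : 0 < p * (1 - p) := mul_pos hp.1 (by linarith only [hp.2])
  exact pos_of_mul_pos_right (lt_of_lt_of_le h4 h3) h5.le

lemma crit_dual {P : Set (Edge n r → Bool)} (hP : IsUpperSet P) (hne : P.Nonempty)
    (hne' : P ≠ Set.univ) {a : ℝ} (ha0 : 0 < a) (ha1 : a < 1) :
    critProb a (dual P) = 1 - critProb (1 - a) P := by
  obtain ⟨h1, h2, h3⟩ := crit_spec (dual_upper hP) (dual_nonempty hne') (dual_ne_univ hne)
    ha0 ha1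
  obtain ⟨h4, h5, h6⟩ := crit_spec hP hne hne' (by linarith only [ha1] : 0 < 1 - a)
    (by linarith only [ha0])
  have h7 : mu (1 - critProb (1 - a) P) (dual P) = a := by
    rw [mu_dual, sub_sub_cancel, h6]; ring
  refine (mu_strict (dual_upper hP) (dual_nonempty hne') (dual_ne_univ hne)).injOn
    ⟨h1.le, h2.le⟩ ⟨by linarith only [h5], by linarith only [h4]⟩ ?_
  show mu _ _ = mu _ _
  rw [h3, h7]

/-- the dual property has the same widths -/
lemma width_dual {P : Set (Edge n r → Bool)} (hP : IsUpperSet P) (hne : P.Nonempty)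
    (hne' : P ≠ Set.univ) {ε : ℝ} (h0 : 0 < ε) (h1 : ε < 1 / 2) :
    width ε (dual P) = width ε P := by
  unfold width
  rw [crit_dual hP hne hne' (by linarith only [h1] : 0 < 1 - ε) (by linarith only [h0]),
    crit_dual hP hne hne' h0 (by linarith only [h1]), sub_sub_cancel]
  ring

/-- Two independent copies: the probability of failing is submultiplicative. -/
lemma mu_or {P : Set (Edge n r → Bool)} (hP : IsUpperSet P) {p p' : ℝ} (h0 : 0 ≤ p)
    (h1 : p ≤ 1) (h0' : 0 ≤ p') (h1' : p' ≤ 1) :
    1 - mu (1 - (1 - p) * (1 - p')) P ≤ (1 - mu p P) * (1 - mu p' P) := by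
  have hg : ∀ s : ℝ, 1 - mu s P = Ex s (fun x => 1 - ind P x) := by
    intro s
    rw [mu_eq, Ex_sub, Ex_const]
  rw [hg, hg, hg]
  rw [Ex_op (p := p) (p' := p') (fun a b => a || b) (by
    intro z
    rw [Fintype.sum_prod_type]
    simp only [Fintype.sum_bool, wt]
    cases z <;> simp <;> ring)]
  rw [← Ex_mul_right]
  refine Ex_mono h0 h1 fun x => ?_
  rw [← Ex_mul_left]
  refine Ex_mono h0' h1' fun y => ?_
  have hx : ind P x ≤ ind P (fun i => x i || y i) := ind_mono hP (by
    intro i
    show x i ≤ (x i || y i)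
    cases x i <;> cases y i <;> simp)
  have hy : ind P y ≤ ind P (fun i => x i || y i) := ind_mono hP (by
    intro i
    show y i ≤ (x i || y i)
    cases x i <;> cases y i <;> simp)
  rcases ind_bool P x with h | h <;> rcases ind_bool P y with h' | h' <;>
    rcases ind_bool P (fun i => x i || y i) with h'' | h'' <;>
    rw [h] at hx <;> rw [h'] at hy <;> rw [h''] at hx hy <;> rw [h, h', h''] <;>
    linarith only [hx, hy]

/-- `k` independent copies -/
lemma mu_or_pow {P : Set (Edge n r → Bool)} (hP : IsUpperSet P) {p : ℝ} (h0 : 0 ≤ p)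
    (h1 : p ≤ 1) (k : ℕ) : 1 - mu (1 - (1 - p) ^ k) P ≤ (1 - mu p P) ^ k := by
  have hp0 : 0 ≤ 1 - p := by linarith only [h1]
  have hp1 : 1 - p ≤ 1 := by linarith only [h0]
  have hmu := mu_le_one h0 h1 P
  induction k with
  | zero =>
    rw [pow_zero, pow_zero, sub_self]
    have := mu_nonneg (le_refl 0) zero_le_one P
    linarith only [this]
  | succ k ih =>
    have hk0 : 0 ≤ (1 - p) ^ k := pow_nonneg hp0 k
    have hk1 : (1 - p) ^ k ≤ 1 := pow_le_one₀ hp0 hp1
    have h := mu_or hP (p := 1 - (1 - p) ^ k) (p' := p) (by linarith only [hk1])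
      (by linarith only [hk0]) h0 h1
    have e : 1 - (1 - (1 - (1 - p) ^ k)) * (1 - p) = 1 - (1 - p) ^ (k + 1) := by
      rw [pow_succ]; ring
    rw [e] at h
    refine h.trans ?_
    rw [pow_succ]
    exact mul_le_mul_of_nonneg_right ih (by linarith only [hmu])

/-- amplification for the critical probabilities -/
lemma crit_amp {P : Set (Edge n r → Bool)} (hP : IsUpperSet P) {p δ ε : ℝ} (h0 : 0 ≤ p)
    (h1 : p ≤ 1) (k : ℕ) (hδ : 1 - mu p P ≤ δ) (hk : δ ^ k ≤ ε) :
    critProb (1 - ε) P ≤ k * p := by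
  have hmu := mu_le_one h0 h1 P
  have h2 := mu_or_pow hP h0 h1 k
  have h3 : (1 - mu p P) ^ k ≤ δ ^ k := pow_le_pow_left₀ (by linarith only [hmu]) hδ k
  have hp0 : 0 ≤ 1 - p := by linarith only [h1]
  have hp1 : 1 - p ≤ 1 := by linarith only [h0]
  have hk0 : 0 ≤ (1 - p) ^ k := pow_nonneg hp0 k
  have hk1 : (1 - p) ^ k ≤ 1 := pow_le_one₀ hp0 hp1
  have h4 : critProb (1 - ε) P ≤ 1 - (1 - p) ^ k :=
    csInf_le (crit_bdd P _) ⟨by linarith only [hk1], by linarith only [hk0],
      by linarith only [h2, h3, hk]⟩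
  have h5 := one_add_mul_le_pow (a := -p) (by linarith only [h1]) k
  have e : (1 + -p) ^ k = (1 - p) ^ k := by ring
  rw [e] at h5
  linarith only [h4, h5]

end dual

end Vale.Agent.P063.H601
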