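import Vale.Agent.P063.MaxWidth

set_option autoImplicit false

namespace Vale.Agent.P063.H601

/-- `rho r n q = (log (1 / (q (1 - q))) / log n) ^ (r / (r - 1))`: the relative order of the
threshold width at the location `q`. -/
noncomputable def rho (r n : ℕ) (q : ℝ) : ℝ :=
  (Real.log (1 / (q * (1 - q))) / Real.log n) ^ ((r : ℝ) / ((r : ℝ) - 1))

end Vale.Agent.P063.H601
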