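import Vale.Agent.P063.H291.Lower

/-!
# Total influence: the sharp dependence on the density `p`
-/

set_option autoImplicit false

namespace Vale.Agent.P063.H601

open Finset Vale.Agent.P063

/-- choice of parameters, keeping the dependence on `p` -/
lemma params2 {r : ℕ} (hr : 2 ≤ r) {n : ℕ} (hΛ1 : 1 ≤ Real.log n)
    (hbig : 4 * Real.log n ^ 6 * Real.exp (Real.log n / 4) ≤ Nat.sqrt n)
    {p : ℝ} (h0 : 0 < p) (h1 : p < 1) :
    ∃ d : ℕ,
      4 * (4 / (p * (1 - p))) ^ d ≤ (1 / Real.log n ^ 2) ^ 3 * (Nat.sqrt n : ℝ) ∧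
      2 * r * (1 / Real.log n ^ 2) + 2 * r / (Nat.sqrt n : ℝ)
        + 1 / (((d : ℝ) + 1) ^ ((r : ℝ) / ((r : ℝ) - 1)) / r)
        ≤ 20 * r * (Real.log (4 / (p * (1 - p))) ^ ((r : ℝ) / ((r : ℝ) - 1))
          * (1 / Real.log n ^ ((r : ℝ) / ((r : ℝ) - 1)))) := by
  set Λ := Real.log n with hΛ
  set L : ℝ := (Nat.sqrt n : ℝ) with hL
  set α : ℝ := (r : ℝ) / ((r : ℝ) - 1) with hα
  have hr2 : (2 : ℝ) ≤ r := by exact_mod_cast hr
  have hr1 : (0 : ℝ) < (r : ℝ) - 1 := by linarith only [hr2]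
  have hα1 : 1 ≤ α := by rw [hα, le_div_iff₀ hr1]; linarith only []
  have hα2 : α ≤ 2 := by rw [hα, div_le_iff₀ hr1]; linarith only [hr2]
  have hs : 0 < p * (1 - p) := mul_pos h0 (by linarith only [h1])
  have hs4 : p * (1 - p) ≤ 1 / 4 := by nlinarith only [sq_nonneg (p - 1 / 2)]
  have hΛ0 : 0 < Λ := by linarith only [hΛ1]
  set K := 4 / (p * (1 - p)) with hK
  have hKpos : 0 < K := by positivity
  have hK16 : 16 ≤ K := by
    rw [hK, le_div_iff₀ hs]; linarith only [hs4]
  have hlogK : 1 ≤ Real.log K := by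
    rw [Real.le_log_iff_exp_le hKpos]
    have := Real.exp_one_lt_d9
    linarith only [hK16, this]
  have hLpos : 0 < L := lt_of_lt_of_le (by positivity) hbig
  have hM : Real.exp (Λ / 4) ≤ L / (4 * Λ ^ 6) := by
    rw [le_div_iff₀ (by positivity)]
    linarith only [hbig]
  have hMpos : 0 < L / (4 * Λ ^ 6) := by (clear * - hLpos hΛ1; positivity)
  have hlogM : Λ / 4 ≤ Real.log (L / (4 * Λ ^ 6)) := by
    rw [Real.le_log_iff_exp_le hMpos]; exact hM
  have hLΛ : Λ ^ 2 ≤ L := by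
    have e1 : (1 : ℝ) ≤ Real.exp (Λ / 4) := Real.one_le_exp (by positivity)
    have e2 : Λ ^ 2 ≤ Λ ^ 6 := pow_le_pow_right₀ hΛ1 (by norm_num)
    have e3 : Λ ^ 6 ≤ Λ ^ 6 * Real.exp (Λ / 4) := le_mul_of_one_le_right (by positivity) e1
    nlinarith only [hbig, e2, e3]
  refine ⟨⌊Real.log (L / (4 * Λ ^ 6)) / Real.log K⌋₊, ?_, ?_⟩
  · have hd : ((⌊Real.log (L / (4 * Λ ^ 6)) / Real.log K⌋₊ : ℕ) : ℝ)
        ≤ Real.log (L / (4 * Λ ^ 6)) / Real.log K :=
      Nat.floor_le (div_nonneg (by linarith only [hΛ1, hlogM]) (by linarith only [hlogK]))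
    set d := ⌊Real.log (L / (4 * Λ ^ 6)) / Real.log K⌋₊ with hd0
    rw [le_div_iff₀ (by linarith only [hlogK])] at hd
    have hpow : K ^ d ≤ L / (4 * Λ ^ 6) := by
      rw [← Real.exp_log hKpos, ← Real.exp_nat_mul]
      calc _ ≤ Real.exp (Real.log (L / (4 * Λ ^ 6))) := Real.exp_le_exp.2 hd
        _ = _ := Real.exp_log hMpos
    calc 4 * K ^ d ≤ 4 * (L / (4 * Λ ^ 6)) := by linarith only [hpow]
      _ = (1 / Λ ^ 2) ^ 3 * L := by (clear * - hΛ1 hLpos; field_simp)
  · have hd : Real.log (L / (4 * Λ ^ 6)) / Real.log K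
        < ((⌊Real.log (L / (4 * Λ ^ 6)) / Real.log K⌋₊ : ℕ) : ℝ) + 1 := Nat.lt_floor_add_one _
    set d := ⌊Real.log (L / (4 * Λ ^ 6)) / Real.log K⌋₊ with hd0
    have hd1 : Λ / (4 * Real.log K) ≤ (d : ℝ) + 1 := by
      refine le_trans ?_ hd.le
      rw [← div_div]
      exact div_le_div_of_nonneg_right hlogM (by linarith only [hlogK])
    have hΛα : 0 < Λ ^ α := Real.rpow_pos_of_pos hΛ0 _
    have hΛα2 : Λ ^ α ≤ Λ ^ 2 := by
      have := Real.rpow_le_rpow_of_exponent_le hΛ1 hα2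
      rwa [Real.rpow_two] at this
    have hinv2 : 1 / Λ ^ 2 ≤ 1 / Λ ^ α := one_div_le_one_div_of_le hΛα hΛα2
    have hKα : 1 ≤ Real.log K ^ α := Real.one_le_rpow hlogK (by linarith only [hα1])
    set κ : ℝ := Real.log K ^ α * (1 / Λ ^ α) with hκ
    have hκ1 : 1 / Λ ^ α ≤ κ := le_mul_of_one_le_left (by positivity) hKα
    have t1 : 2 * r * (1 / Λ ^ 2) ≤ 2 * r * κ :=
      mul_le_mul_of_nonneg_left (hinv2.trans hκ1) (by positivity)
    have t2 : 2 * r / L ≤ 2 * r * κ := by
      have hLinv : 1 / L ≤ 1 / Λ ^ α :=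
        one_div_le_one_div_of_le hΛα (hΛα2.trans hLΛ)
      calc 2 * r / L = 2 * r * (1 / L) := by ring
        _ ≤ 2 * r * κ := mul_le_mul_of_nonneg_left (hLinv.trans hκ1) (by positivity)
    have hdα : Λ ^ α / (4 * Real.log K) ^ α ≤ ((d : ℝ) + 1) ^ α := by
      rw [← Real.div_rpow hΛ0.le (by (clear * - hlogK; positivity))]
      exact Real.rpow_le_rpow (by (clear * - hΛ1 hlogK; positivity)) hd1 (by linarith only [hα1])
    have h4K : 0 < (4 * Real.log K) ^ α := Real.rpow_pos_of_pos (by (clear * - hlogK; positivity)) _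
    have h4α : (4:ℝ) ^ α ≤ 16 := by
      calc (4:ℝ) ^ α ≤ (4:ℝ) ^ (2:ℝ) :=
            Real.rpow_le_rpow_of_exponent_le (by norm_num) hα2
        _ = 16 := by rw [Real.rpow_two]; norm_num
    have t3 : 1 / (((d : ℝ) + 1) ^ α / r) ≤ 16 * r * κ := by
      have hdpos : 0 < ((d : ℝ) + 1) ^ α := Real.rpow_pos_of_pos (by (clear * -; positivity)) _
      have e1 : 1 / (((d : ℝ) + 1) ^ α / r) = r * (1 / ((d : ℝ) + 1) ^ α) := by
        rw [one_div_div]; ring
      have e2 : 1 / ((d : ℝ) + 1) ^ α ≤ (4 * Real.log K) ^ α * (1 / Λ ^ α) := by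
        have e3 : 1 / ((d : ℝ) + 1) ^ α ≤ 1 / (Λ ^ α / (4 * Real.log K) ^ α) :=
          one_div_le_one_div_of_le (by (clear * - hΛα h4K; positivity)) hdα
        rw [one_div_div] at e3
        calc _ ≤ _ := e3
          _ = _ := by ring
      have e4 : (4 * Real.log K) ^ α * (1 / Λ ^ α) ≤ 16 * κ := by
        rw [Real.mul_rpow (by norm_num) (by linarith only [hlogK]), mul_assoc]
        exact mul_le_mul_of_nonneg_right h4α (by positivity)
      rw [e1]
      calc (r:ℝ) * (1 / ((d : ℝ) + 1) ^ α) ≤ r * (16 * κ) :=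
            mul_le_mul_of_nonneg_left (e2.trans e4) (by positivity)
        _ = _ := by ring
    calc 2 * r * (1 / Λ ^ 2) + 2 * r / L + 1 / (((d : ℝ) + 1) ^ α / r)
        ≤ 2 * r * κ + 2 * r * κ + 16 * r * κ := by linarith only [t1, t2, t3]
      _ = 20 * r * κ := by ring

/-- Poincaré, with the factor `p (1 - p)` -/
lemma poincare {n r : ℕ} {p : ℝ} (h0 : 0 < p) (h1 : p < 1) (P : Set (Edge n r → Bool)) :
    mu p P * (1 - mu p P) ≤ p * (1 - p) * totalInfl p P := by
  have e : mu p P * (1 - mu p P) = mu p P - mu p P ^ 2 := by ring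
  rw [e, mu_eq, var_eq h0 h1 (ind P) (ind_bool P)]
  calc ∑ S ∈ Finset.univ.filter (fun S : Finset (Edge n r) => S.Nonempty), fc p (ind P) S ^ 2
      ≤ ∑ S ∈ Finset.univ.filter (fun S : Finset (Edge n r) => S.Nonempty),
        (S.card : ℝ) * fc p (ind P) S ^ 2 := by
        refine Finset.sum_le_sum fun S hS => ?_
        rw [Finset.mem_filter] at hS
        have h2 : (1 : ℝ) ≤ S.card := by exact_mod_cast hS.2.card_pos
        exact le_mul_of_one_le_left (sq_nonneg _) h2
    _ ≤ ∑ S : Finset (Edge n r), (S.card : ℝ) * fc p (ind P) S ^ 2 :=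
        Finset.sum_le_sum_of_subset_of_nonneg (Finset.subset_univ _) fun S _ _ =>
          mul_nonneg (Nat.cast_nonneg _) (sq_nonneg _)
    _ = p * (1 - p) * totalInfl p P := H291.sum_card_ind h0 h1 P

/-- `1 < log (1 / (p (1 - p)))` -/
lemma log_inv_gt {p : ℝ} (h0 : 0 < p) (h1 : p < 1) : 1 < Real.log (1 / (p * (1 - p))) := by
  have hs : 0 < p * (1 - p) := mul_pos h0 (by linarith only [h1])
  have hs4 : p * (1 - p) ≤ 1 / 4 := by nlinarith only [sq_nonneg (p - 1 / 2)]
  rw [Real.lt_log_iff_exp_lt (by positivity)]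
  have := Real.exp_one_lt_d9
  have h4 : (4:ℝ) ≤ 1 / (p * (1 - p)) := by
    rw [le_div_iff₀ hs]; linarith only [hs4]
  linarith only [h4, this]

/-- **The total influence of a property at density `p`**, with the sharp dependence on `p`. -/
theorem infl_p {r : ℕ} (hr : 2 ≤ r) : ∃ C : ℝ, 0 < C ∧ ∀ n : ℕ, r ≤ n →
    ∀ P : Set (Edge n r → Bool), IsProperty P → ∀ p : ℝ, 0 < p → p < 1 →
      Real.log n ^ ((r : ℝ) / ((r : ℝ) - 1)) * (mu p P * (1 - mu p P))
        ≤ C * (p * (1 - p) * Real.log (1 / (p * (1 - p))) ^ ((r : ℝ) / ((r : ℝ) - 1)))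
          * totalInfl p P := by
  obtain ⟨n0, hn02, hn0⟩ := eventually_good
  have hr2 : (2 : ℝ) ≤ r := by exact_mod_cast hr
  have hr1 : (0 : ℝ) < (r : ℝ) - 1 := by linarith only [hr2]
  set α : ℝ := (r : ℝ) / ((r : ℝ) - 1) with hα
  have hα1 : 1 ≤ α := by rw [hα, le_div_iff₀ hr1]; linarith only []
  have hα2 : α ≤ 2 := by rw [hα, div_le_iff₀ hr1]; linarith only [hr2]
  refine ⟨80 * r + (1 + Real.log n0) ^ 2, by positivity, fun n hrn P hP p h0 h1 => ?_⟩
  have hs : 0 < p * (1 - p) := mul_pos h0 (by linarith only [h1])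
  have hs4 : p * (1 - p) ≤ 1 / 4 := by nlinarith only [sq_nonneg (p - 1 / 2)]
  have hT := H291.totalInfl_nonneg (n := n) (r := r) h0.le h1.le P
  have hI := H291.sum_card_ind h0 h1 P
  have hl1 := log_inv_gt h0 h1
  set h : ℝ := Real.log (1 / (p * (1 - p))) with hh
  have hhα : 1 ≤ h ^ α := Real.one_le_rpow hl1.le (by linarith only [hα1])
  have hpI : 0 ≤ p * (1 - p) * totalInfl p P := mul_nonneg hs.le hT
  have hn2 : (2:ℝ) ≤ n := by exact_mod_cast (le_trans hr hrn)
  have hl0 : 0 < Real.log n := Real.log_pos (by linarith only [hn2])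
  have hlα0 : 0 < Real.log n ^ α := Real.rpow_pos_of_pos hl0 _
  have e0 : ∀ c : ℝ, c * (p * (1 - p) * h ^ α) * totalInfl p P
      = c * h ^ α * (p * (1 - p) * totalInfl p P) := fun c => by ring
  rw [e0]
  rcases le_or_gt n0 n with hn | hn
  · obtain ⟨hΛ1, hbig⟩ := hn0 n hn
    obtain ⟨d, hd1, hd2⟩ := params2 hr hΛ1 hbig h0 h1
    have hLpos : (0 : ℝ) < Nat.sqrt n := lt_of_lt_of_le (by positivity) hbig
    have hL1 : 1 ≤ Nat.sqrt n := by
      have : 0 < Nat.sqrt n := by exact_mod_cast hLpos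
      exact this
    have hcore := core (n := n) (r := r) (L := Nat.sqrt n) (d := d) hL1 (Nat.sqrt_le n) h0 h1
      (ind P) (ind_bool P) (ind_inv hP) (1 / Real.log n ^ 2) (by positivity) hd1
      (((d : ℝ) + 1) ^ ((r : ℝ) / ((r : ℝ) - 1)) / r)
      (div_pos (Real.rpow_pos_of_pos (by (clear * -; positivity)) _) (by linarith only [hr2]))
      (fun S hS hdeg => card_ge hr d S hS hdeg)
    rw [hI, ← mu_eq] at hcore
    have hKlog : Real.log (4 / (p * (1 - p))) ≤ 2 * h := by
      have e1 : (4:ℝ) / (p * (1 - p)) = 4 * (1 / (p * (1 - p))) := by ring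
      rw [e1, Real.log_mul (by norm_num) (by positivity), ← hh]
      have h4 : Real.log 4 ≤ h := by
        rw [hh]
        apply Real.log_le_log (by norm_num)
        rw [le_div_iff₀ hs]; linarith only [hs4]
      linarith only [h4]
    have hK0 : 0 ≤ Real.log (4 / (p * (1 - p))) := by
      apply Real.log_nonneg
      rw [le_div_iff₀ hs]; linarith only [hs4]
    have hKα : Real.log (4 / (p * (1 - p))) ^ α ≤ 4 * h ^ α := by
      calc Real.log (4 / (p * (1 - p))) ^ α ≤ (2 * h) ^ α :=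
            Real.rpow_le_rpow hK0 hKlog (by linarith only [hα1])
        _ = 2 ^ α * h ^ α := Real.mul_rpow (by norm_num) (by linarith only [hl1])
        _ ≤ 4 * h ^ α := by
            apply mul_le_mul_of_nonneg_right _ (by linarith only [hhα])
            calc (2:ℝ) ^ α ≤ (2:ℝ) ^ (2:ℝ) :=
                  Real.rpow_le_rpow_of_exponent_le (by norm_num) hα2
              _ = 4 := by rw [Real.rpow_two]; norm_num
    have hmul : Real.log n ^ α * (mu p P * (1 - mu p P))
        ≤ 80 * r * h ^ α * (p * (1 - p) * totalInfl p P) := by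
      have e : mu p P * (1 - mu p P) = mu p P - mu p P ^ 2 := by ring
      rw [e]
      calc Real.log n ^ α * (mu p P - mu p P ^ 2)
          ≤ Real.log n ^ α * ((20 * r * (Real.log (4 / (p * (1 - p))) ^ α
            * (1 / Real.log n ^ α))) * (p * (1 - p) * totalInfl p P)) := by
            apply mul_le_mul_of_nonneg_left _ hlα0.le
            exact hcore.trans (mul_le_mul_of_nonneg_right hd2 hpI)
        _ = 20 * r * Real.log (4 / (p * (1 - p))) ^ α * (p * (1 - p) * totalInfl p P) := by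
            field_simp
        _ ≤ 20 * r * (4 * h ^ α) * (p * (1 - p) * totalInfl p P) := by
            apply mul_le_mul_of_nonneg_right _ hpI
            apply mul_le_mul_of_nonneg_left hKα (by positivity)
        _ = _ := by ring
    refine hmul.trans ?_
    apply mul_le_mul_of_nonneg_right _ hpI
    apply mul_le_mul_of_nonneg_right _ (by linarith only [hhα])
    have h2 : 0 ≤ (1 + Real.log n0) ^ 2 := sq_nonneg _
    linarith only [h2]
  · have hlog : Real.log n ≤ Real.log n0 := by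
      apply Real.log_le_log (by linarith only [hn2])
      exact_mod_cast hn.le
    have h3 : Real.log n ^ α ≤ (1 + Real.log n0) ^ 2 := by
      calc Real.log n ^ α
          ≤ (1 + Real.log n0) ^ α :=
            Real.rpow_le_rpow hl0.le (by linarith only [hlog]) (by linarith only [hα1])
        _ ≤ (1 + Real.log n0) ^ (2:ℝ) :=
            Real.rpow_le_rpow_of_exponent_le (by linarith only [hl0, hlog]) hα2
        _ = (1 + Real.log n0) ^ 2 := Real.rpow_two _
    have hpo := poincare h0 h1 P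
    have hr0 : (0:ℝ) ≤ 80 * r := by positivity
    calc Real.log n ^ α * (mu p P * (1 - mu p P))
        ≤ Real.log n ^ α * (p * (1 - p) * totalInfl p P) :=
          mul_le_mul_of_nonneg_left hpo hlα0.le
      _ ≤ (1 + Real.log n0) ^ 2 * (p * (1 - p) * totalInfl p P) :=
          mul_le_mul_of_nonneg_right h3 hpI
      _ ≤ (80 * r + (1 + Real.log n0) ^ 2) * h ^ α * (p * (1 - p) * totalInfl p P) := by
          apply mul_le_mul_of_nonneg_right _ hpI
          calc (1 + Real.log n0) ^ 2 ≤ 80 * r + (1 + Real.log n0) ^ 2 := by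
                linarith only [hr0]
            _ ≤ (80 * r + (1 + Real.log n0) ^ 2) * h ^ α :=
                le_mul_of_one_le_right (by positivity) hhα

end Vale.Agent.P063.H601
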