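import Vale.Agent.P063.H601.Second

/-!
# Optimality at every scale of `log (1 / q)`
-/

set_option autoImplicit false

namespace Vale.Agent.P063.H601

open Finset Vale.Agent.P063

/-- eventually `(B log n)^4 ≤ n` -/
lemma eventually_pow (B : ℝ) : ∃ n0 : ℕ, 3 ≤ n0 ∧ ∀ n : ℕ, n0 ≤ n →
    1 ≤ Real.log n ∧ (B * Real.log n) ^ 4 ≤ n := by
  have h1 : ∀ᶠ x : ℝ in Filter.atTop, ‖Real.log x ^ 4‖ ≤ (1 / (1 + B ^ 4)) * ‖(id x : ℝ)‖ :=
    (Real.isLittleO_pow_log_id_atTop (n := 4)).bound (by positivity)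
  have h2 : Filter.Tendsto (fun n : ℕ => (n : ℝ)) Filter.atTop Filter.atTop :=
    tendsto_natCast_atTop_atTop
  obtain ⟨n0, hn0⟩ := Filter.eventually_atTop.1 (h2.eventually h1)
  refine ⟨max n0 3, le_max_right _ _, fun n hn => ?_⟩
  have hn1 := hn0 n (le_trans (le_max_left _ _) hn)
  have hn3 : (3:ℝ) ≤ n := by exact_mod_cast le_trans (le_max_right _ _) hn
  have hn' : (0:ℝ) < n := by linarith only [hn3]
  have hlog : 1 ≤ Real.log n := by
    rw [Real.le_log_iff_exp_le hn']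
    have := Real.exp_one_lt_d9
    linarith only [this, hn3]
  refine ⟨hlog, ?_⟩
  have hB : 0 ≤ B ^ 4 := by positivity
  rw [Real.norm_eq_abs, Real.norm_eq_abs, id_eq, abs_of_nonneg hn'.le,
    abs_of_nonneg (by positivity), one_div, inv_mul_eq_div, le_div_iff₀ (by positivity)] at hn1
  rw [mul_pow]
  have h4 : 0 ≤ Real.log n ^ 4 := by positivity
  nlinarith only [hn1, h4, hB]

/-- **Optimality at every scale**, for all `ε` at the same time. -/
theorem scale {r : ℕ} (hr : 2 ≤ r) :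
    ∃ c C : ℝ, 0 < c ∧ 0 < C ∧ ∃ n0 : ℕ, ∀ n : ℕ, n0 ≤ n → ∀ t : ℝ, 1 ≤ t → t ≤ Real.log n →
      ∃ P : Set (Edge n r → Bool), IsProperty P ∧ IsUpperSet P ∧ P.Nonempty ∧ P ≠ Set.univ ∧
        c * t ≤ Real.log (1 / critProb (1 / 2) P) ∧
        Real.log (1 / critProb (1 / 2) P) ≤ C * t ∧
        ∀ ε : ℝ, 0 < ε → ε < 1 / 2 →
        c * (critProb (1 / 2) P * (1 - critProb (1 / 2) P)
          * min 1 (Real.log ((1 - ε) / ε)
            * (Real.log (1 / (critProb (1 / 2) P * (1 - critProb (1 / 2) P))) / Real.log n)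
            ^ ((r : ℝ) / ((r : ℝ) - 1)))) ≤ width ε P := by
  have hr2 : (2 : ℝ) ≤ r := by exact_mod_cast hr
  have hr1 : (0 : ℝ) < (r : ℝ) - 1 := by linarith only [hr2]
  set α : ℝ := (r : ℝ) / ((r : ℝ) - 1) with hα
  have hα0 : 0 < α := by rw [hα]; positivity
  have hfac : (1:ℝ) ≤ (r.factorial : ℝ) := by
    exact_mod_cast Nat.one_le_iff_ne_zero.2 (Nat.factorial_ne_zero r)
  have hfacpos : (0:ℝ) < (r.factorial : ℝ) := by linarith only [hfac]
  have hcast : ((r - 1 : ℕ) : ℝ) = (r : ℝ) - 1 := by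
    rw [Nat.cast_sub (by omega)]; simp
  -- constants
  set c1 : ℝ := 1 / (2 * (2 * (r:ℝ)) ^ (r - 1)) with hc1
  have hc1pos : 0 < c1 := by positivity
  set D1 : ℝ := - Real.log (1 - Real.exp (-c1)) with hD1
  have hexpc1 : Real.exp (-c1) < 1 := by
    rw [Real.exp_lt_one_iff]; linarith only [hc1pos]
  have hD1pos : 0 ≤ D1 := by
    rw [hD1]
    have : Real.log (1 - Real.exp (-c1)) ≤ 0 :=
      Real.log_nonpos (by linarith only [hexpc1]) (by linarith only [Real.exp_pos (-c1)])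
    linarith only [this]
  set D2 : ℝ := ((r:ℝ) + 1) * r.factorial + D1 with hD2
  have hD2pos : 0 < D2 := by positivity
  have hD2α : 0 < D2 ^ α := Real.rpow_pos_of_pos hD2pos _
  set E : ℝ := 1 + (2 * r) ^ r * D2 ^ α with hE
  have hEpos : 0 < E := by positivity
  set c2 : ℝ := 1 / (2 * E) with hc2
  have hc2pos : 0 < c2 := by positivity
  obtain ⟨n0, hn03, hn0⟩ := eventually_pow (4 * r)
  refine ⟨min c1 c2, ((r:ℝ) + 1) * r.factorial, lt_min hc1pos hc2pos, by positivity, n0,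
    fun n hn t ht1 htn => ?_⟩
  obtain ⟨hΛ1, hΛ4⟩ := hn0 n hn
  have hn3 : (3:ℝ) ≤ n := by exact_mod_cast le_trans hn03 hn
  have hnpos : (0:ℝ) < n := by linarith only [hn3]
  set Λ := Real.log n with hΛ
  have hΛ0 : 0 < Λ := by linarith only [hΛ1]
  have ht0 : 0 < t := by linarith only [ht1]
  -- the clique size
  set Y : ℝ := Λ / t with hY
  have hY1 : 1 ≤ Y := by rw [hY, le_div_iff₀ ht0]; linarith only [htn]
  have hY0 : 0 < Y := by linarith only [hY1]
  have hYt : Y * t = Λ := by rw [hY]; field_simp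
  have hYΛ : Y ≤ Λ := by
    rw [hY, div_le_iff₀ ht0]
    exact le_mul_of_one_le_right hΛ0.le ht1
  set τ : ℝ := Y ^ (1 / ((r:ℝ) - 1)) with hτ
  have hτ1 : 1 ≤ τ := Real.one_le_rpow hY1 (by positivity)
  have hτpow : τ ^ (r - 1) = Y := by
    rw [hτ, one_div, ← hcast]
    exact Real.rpow_inv_natCast_pow hY0.le (by omega)
  have hτY : τ ≤ Y := by
    calc Y ^ (1 / ((r:ℝ) - 1)) ≤ Y ^ (1:ℝ) := by
          apply Real.rpow_le_rpow_of_exponent_le hY1
          rw [div_le_one hr1]; linarith only [hr2]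
      _ = Y := Real.rpow_one _
  set j : ℕ := ⌈τ⌉₊ with hj
  have hjτ : τ ≤ j := Nat.le_ceil τ
  have hj2 : (j:ℝ) ≤ 2 * τ := by
    have := Nat.ceil_lt_add_one (show 0 ≤ τ by linarith only [hτ1])
    linarith only [this, hτ1]
  have hj1r : (1:ℝ) ≤ j := le_trans hτ1 hjτ
  have hj1 : 1 ≤ j := by exact_mod_cast hj1r
  have hjpow : Y ≤ (j:ℝ) ^ (r - 1) := by
    rw [← hτpow]
    exact pow_le_pow_left₀ (by linarith only [hτ1]) hjτ _
  obtain ⟨k, hk⟩ : ∃ k, k = j + (r - 1) := ⟨_, rfl⟩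
  have hrk : r ≤ k := by omega
  have hk1 : 1 ≤ k := by omega
  have hkr : (k:ℝ) ≤ r * j := by
    rw [hk, Nat.cast_add, hcast]
    have h5 : 0 ≤ ((r:ℝ) - 1) * ((j:ℝ) - 1) :=
      mul_nonneg (by linarith only [hr2]) (by linarith only [hj1r])
    linarith only [h5]
  have hkτ : (k:ℝ) ≤ 2 * r * τ := by
    calc (k:ℝ) ≤ r * j := hkr
      _ ≤ r * (2 * τ) := mul_le_mul_of_nonneg_left hj2 (by linarith only [hr2])
      _ = _ := by ring
  have hkpos : (0:ℝ) < k := by exact_mod_cast hk1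
  have hkpow : (k:ℝ) ^ (r - 1) ≤ (2 * r) ^ (r - 1) * Y := by
    calc (k:ℝ) ^ (r - 1) ≤ (2 * r * τ) ^ (r - 1) := pow_le_pow_left₀ hkpos.le hkτ _
      _ = _ := by rw [mul_pow, hτpow]
  have hkn4 : (2 * (k:ℝ)) ^ 4 ≤ n := by
    refine le_trans ?_ hΛ4
    apply pow_le_pow_left₀ (by positivity)
    calc 2 * (k:ℝ) ≤ 2 * (2 * r * τ) := by linarith only [hkτ]
      _ = 4 * r * τ := by ring
      _ ≤ 4 * r * Λ := mul_le_mul_of_nonneg_left (hτY.trans hYΛ) (by positivity)
  have hk1r : (1:ℝ) ≤ k := by exact_mod_cast hk1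
  have hknr : (k:ℝ) ≤ n := by
    refine le_trans ?_ hkn4
    have e : (2 * (k:ℝ)) ^ 4 = 16 * ((k:ℝ) ^ 3 * k) := by ring
    rw [e]
    have e2 : (1:ℝ) ≤ (k:ℝ) ^ 3 := one_le_pow₀ hk1r
    nlinarith only [e2, hkpos]
  have hkn : k ≤ n := by exact_mod_cast hknr
  have hP1 := clique_property (n := n) (r := r) k
  have hP2 := clique_upper (n := n) (r := r) k
  have hP3 := clique_nonempty (r := r) hkn
  have hP4 := clique_ne_univ (n := n) hrk
  refine ⟨hasClique n r k, hP1, hP2, hP3, hP4, ?_⟩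
  obtain ⟨hq0, hq1, hqh⟩ := crit_spec hP2 hP3 hP4 (by norm_num : (0:ℝ) < 1 / 2) (by norm_num)
  set q := critProb (1 / 2) (hasClique n r k) with hq
  -- upper bound for `q`
  have hqup : q ≤ Real.exp (-(Λ / (2 * (k:ℝ) ^ (r - 1)))) := by
    set p : ℝ := Real.exp (-(Λ / (2 * (k:ℝ) ^ (r - 1)))) with hp
    have hp0 : 0 < p := Real.exp_pos _
    have hp1 : p < 1 := by
      rw [hp, Real.exp_lt_one_iff]
      have : 0 < Λ / (2 * (k:ℝ) ^ (r - 1)) := by positivity
      linarith only [this]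
    have hNk : k * (n / k) ≤ n := Nat.mul_div_le n k
    have hlt : n < k * (n / k) + k := by
      have h := Nat.div_add_mod n k
      have h2 := Nat.mod_lt n hk1
      omega
    have hltr : (n:ℝ) < k * ((n / k : ℕ) : ℝ) + k := by exact_mod_cast hlt
    have hsq : Real.exp (Λ / 2) ^ 2 = n := by
      rw [← Real.exp_nat_mul]
      have : ((2:ℕ):ℝ) * (Λ / 2) = Λ := by push_cast; ring
      rw [this, hΛ, Real.exp_log hnpos]
    have hsq1 : 4 * (k:ℝ) ^ 2 ≤ Real.exp (Λ / 2) := by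
      have e : (4 * (k:ℝ) ^ 2) ^ 2 ≤ Real.exp (Λ / 2) ^ 2 := by
        rw [hsq]
        calc (4 * (k:ℝ) ^ 2) ^ 2 = (2 * (k:ℝ)) ^ 4 := by ring
          _ ≤ (n:ℝ) := hkn4
      exact (pow_le_pow_iff_left₀ (by positivity) (Real.exp_pos _).le (by norm_num)).1 e
    have hNbig : 2 * (k:ℝ) * Real.exp (Λ / 2) ≤ ((n / k : ℕ) : ℝ) := by
      have e1 : 2 * (k:ℝ) * Real.exp (Λ / 2) * k + k ≤ n := by
        rw [← hsq]
        have e2 : (1:ℝ) ≤ k ^ 2 := one_le_pow₀ hk1r
        have e3 : (k:ℝ) ≤ k ^ 2 := by nlinarith only [hk1r]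
        have e4 : (4:ℝ) ≤ Real.exp (Λ / 2) := by nlinarith only [hsq1, e2]
        nlinarith only [hsq1, e3, e4]
      have e5 : k * (2 * (k:ℝ) * Real.exp (Λ / 2)) < k * ((n / k : ℕ) : ℝ) := by
        linarith only [e1, hltr]
      exact (lt_of_mul_lt_mul_left e5 hkpos.le).le
    have hN : 0 < n / k := by
      have : (0:ℝ) < ((n / k : ℕ) : ℝ) :=
        lt_of_lt_of_le (by positivity) hNbig
      exact_mod_cast this
    have hhalf : 1 / 2 ≤ mu p (hasClique n r k) := by
      refine clique_half hN hNk hp0 hp1 (y := Real.exp (Λ / 2))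
        (Real.one_le_exp (by positivity)) ?_ hNbig
      intro i hi
      rw [hp, ← Real.exp_nat_mul, ← Real.exp_nat_mul, ← Real.exp_add]
      apply Real.one_le_exp
      have e1 : ((i.choose r : ℕ) : ℝ) ≤ i * (k:ℝ) ^ (r - 1) := by
        have e2 : i.choose r ≤ i ^ r := Nat.choose_le_pow i r
        have e3 : i ^ r = i * i ^ (r - 1) := by
          obtain ⟨q', rfl⟩ : ∃ q', r = q' + 1 := ⟨r - 1, by omega⟩
          simp only [Nat.add_sub_cancel]
          ring
        have e4 : i ^ (r - 1) ≤ k ^ (r - 1) := Nat.pow_le_pow_left hi _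
        have e5 : i.choose r ≤ i * k ^ (r - 1) := by
          rw [e3] at e2
          exact e2.trans (Nat.mul_le_mul_left i e4)
        exact_mod_cast e5
      have hkp : 0 < (k:ℝ) ^ (r - 1) := by positivity
      have e6 : ((i.choose r : ℕ) : ℝ) * (Λ / (2 * (k:ℝ) ^ (r - 1))) ≤ i * (Λ / 2) := by
        calc ((i.choose r : ℕ) : ℝ) * (Λ / (2 * (k:ℝ) ^ (r - 1)))
            ≤ (i * (k:ℝ) ^ (r - 1)) * (Λ / (2 * (k:ℝ) ^ (r - 1))) :=
              mul_le_mul_of_nonneg_right e1 (by positivity)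
          _ = _ := by field_simp
      linarith only [e6]
    exact csInf_le (crit_bdd _ _) ⟨hp0.le, hp1.le, hhalf⟩
  -- lower bound for `q`
  have hqlow : Real.exp (-(((r:ℝ) + 1) * r.factorial * t)) ≤ q := by
    set p : ℝ := Real.exp (-(((r:ℝ) + 1) * r.factorial * t)) with hp
    have hp0 : 0 < p := Real.exp_pos _
    have hp1 : p ≤ 1 := by
      rw [hp, Real.exp_le_one_iff]
      have : 0 < ((r:ℝ) + 1) * r.factorial * t := by positivity
      linarith only [this]
    have hfm := clique_first_moment (n := n) (r := r) hp0.le hp1 k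
    have hch : ((j:ℝ) ^ r) / r.factorial ≤ (k.choose r : ℝ) := by
      have := Nat.pow_le_choose (α := ℝ) r k
      have h2 : k + 1 - r = j := by omega
      rw [h2] at this
      exact this
    have hch2 : j * Λ ≤ (k.choose r : ℝ) * (r.factorial * t) := by
      rw [div_le_iff₀ hfacpos] at hch
      have hjr' : (j:ℝ) ^ r = j * (j:ℝ) ^ (r - 1) := by
        obtain ⟨q', rfl⟩ : ∃ q', r = q' + 1 := ⟨r - 1, by omega⟩
        simp only [Nat.add_sub_cancel]
        ring
      calc j * Λ = (j * Y) * t := by rw [mul_assoc, hYt]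
        _ ≤ (j * (j:ℝ) ^ (r - 1)) * t :=
            mul_le_mul_of_nonneg_right (mul_le_mul_of_nonneg_left hjpow (by positivity)) ht0.le
        _ ≤ ((k.choose r : ℝ) * r.factorial) * t := by
            rw [← hjr']
            exact mul_le_mul_of_nonneg_right hch ht0.le
        _ = _ := by ring
    have hlt : mu p (hasClique n r k) < 1 / 2 := by
      refine lt_of_le_of_lt hfm ?_
      have hexp : (n : ℝ) ^ k * p ^ (k.choose r)
          = Real.exp ((k:ℝ) * Λ - (k.choose r : ℝ) * (((r:ℝ) + 1) * r.factorial * t)) := by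
        rw [Real.exp_sub, Real.exp_nat_mul, Real.exp_nat_mul, hΛ, Real.exp_log hnpos, hp,
          Real.exp_neg, inv_pow, div_eq_mul_inv]
      rw [hexp]
      have e1 : (k:ℝ) * Λ ≤ r * j * Λ := mul_le_mul_of_nonneg_right hkr hΛ0.le
      have e2 : ((r:ℝ) + 1) * (j * Λ) ≤ ((r:ℝ) + 1) * ((k.choose r : ℝ) * (r.factorial * t)) :=
        mul_le_mul_of_nonneg_left hch2 (by positivity)
      have e3 : Λ ≤ j * Λ := le_mul_of_one_le_left hΛ0.le hj1r
      have e4 : (k:ℝ) * Λ - (k.choose r : ℝ) * (((r:ℝ) + 1) * r.factorial * t) ≤ -1 := by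
        linarith only [e1, e2, e3, hΛ1]
      calc _ ≤ Real.exp (-1) := Real.exp_le_exp.2 e4
        _ < 1 / 2 := by
            have h1 := Real.exp_one_gt_d9
            rw [Real.exp_neg, inv_eq_one_div]
            exact one_div_lt_one_div_of_lt (by norm_num) (by linarith only [h1])
    by_contra hcon
    rw [not_le] at hcon
    have := mu_monoOn hP2 ⟨hq0.le, hq1.le⟩ ⟨hp0.le, hp1⟩ hcon.le
    simp only [hqh] at this
    linarith only [this, hlt]
  -- the location
  have hloc1 : c1 * t ≤ Real.log (1 / q) := by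
    have e1 : Λ / (2 * (k:ℝ) ^ (r - 1)) ≤ Real.log (1 / q) := by
      have := Real.log_le_log hq0 hqup
      rw [Real.log_exp] at this
      rw [one_div, Real.log_inv]
      linarith only [this]
    refine le_trans ?_ e1
    rw [le_div_iff₀ (by positivity), hc1]
    calc 1 / (2 * (2 * (r:ℝ)) ^ (r - 1)) * t * (2 * (k:ℝ) ^ (r - 1))
        ≤ 1 / (2 * (2 * (r:ℝ)) ^ (r - 1)) * t * (2 * ((2 * r) ^ (r - 1) * Y)) := by
          apply mul_le_mul_of_nonneg_left _ (by positivity)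
          linarith only [hkpow]
      _ = Y * t := by field_simp
      _ = Λ := hYt
  have hloc2 : Real.log (1 / q) ≤ ((r:ℝ) + 1) * r.factorial * t := by
    have := Real.log_le_log (Real.exp_pos _) hqlow
    rw [Real.log_exp] at this
    rw [one_div, Real.log_inv]
    linarith only [this]
  refine ⟨?_, hloc2, ?_⟩
  · exact le_trans (mul_le_mul_of_nonneg_right (min_le_left _ _) ht0.le) hloc1
  -- the width
  intro ε h0 h1
  have hwid := width_ge (Nat.choose_pos hrk) hP2 hP3 hP4 (fun x hx => clique_min x hx) h0 h1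
  set ℓ : ℝ := Real.log ((1 - ε) / ε) with hℓ
  have hℓ0 : 0 < ℓ := by
    apply Real.log_pos
    rw [lt_div_iff₀ h0]
    linarith only [h1]
  rw [← hq] at hwid
  have hsz := size_aux hr hj1 hk hY0 hj2
  rw [← hα] at hsz
  have hs0 : 0 < q * (1 - q) := mul_pos hq0 (by linarith only [hq1])
  have hh : Real.log (1 / (q * (1 - q))) ≤ D2 * t := by
    have e1 : Real.log (1 / (q * (1 - q))) = Real.log (1 / q) - Real.log (1 - q) := by
      rw [one_div, Real.log_inv, Real.log_mul hq0.ne' (by linarith only [hq1] : (0:ℝ) < 1 - q).ne',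
        one_div, Real.log_inv]
      ring
    have e2 : Real.log (1 - Real.exp (-c1)) ≤ Real.log (1 - q) := by
      apply Real.log_le_log (by linarith only [hexpc1])
      have e3 : q ≤ Real.exp (-c1) := by
        have e4 : Real.log q ≤ -c1 := by
          rw [one_div, Real.log_inv] at hloc1
          have : c1 ≤ c1 * t := le_mul_of_one_le_right hc1pos.le ht1
          linarith only [hloc1, this]
        calc q = Real.exp (Real.log q) := (Real.exp_log hq0).symm
          _ ≤ _ := Real.exp_le_exp.2 e4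
      linarith only [e3]
    have e5 : D1 ≤ D1 * t := le_mul_of_one_le_right hD1pos ht1
    rw [e1, hD2]
    have e6 : - Real.log (1 - q) ≤ D1 := by rw [hD1]; linarith only [e2]
    linarith only [e5, e6, hloc2]
  have hh1 := log_inv_gt hq0 hq1
  set h : ℝ := Real.log (1 / (q * (1 - q))) with hhdef
  have hYα : 0 < Y ^ α := Real.rpow_pos_of_pos hY0 _
  have hhα : (h / Λ) ^ α ≤ D2 ^ α / Y ^ α := by
    rw [← Real.div_rpow hD2pos.le hY0.le]
    apply Real.rpow_le_rpow (div_nonneg (by linarith only [hh1]) hΛ0.le) _ hα0.le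
    rw [div_le_div_iff₀ hΛ0 hY0, ← hYt]
    calc h * Y ≤ (D2 * t) * Y := mul_le_mul_of_nonneg_right hh hY0.le
      _ = D2 * (Y * t) := by ring
  have hhα0 : 0 ≤ (h / Λ) ^ α :=
    Real.rpow_nonneg (div_nonneg (by linarith only [hh1]) hΛ0.le) _
  have hchpos : (0:ℝ) < (k.choose r : ℝ) := by exact_mod_cast Nat.choose_pos hrk
  have hmin0 : 0 ≤ min 1 (ℓ * (h / Λ) ^ α) := le_min zero_le_one (mul_nonneg hℓ0.le hhα0)
  have hκ : (h / Λ) ^ α ≤ E / (k.choose r : ℝ) := by
    refine hhα.trans ?_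
    rw [div_le_div_iff₀ hYα hchpos]
    calc D2 ^ α * (k.choose r : ℝ) ≤ D2 ^ α * ((2 * r) ^ r * Y ^ α) :=
          mul_le_mul_of_nonneg_left hsz hD2α.le
      _ = ((2 * r) ^ r * D2 ^ α) * Y ^ α := by ring
      _ ≤ E * Y ^ α := by
          apply mul_le_mul_of_nonneg_right _ hYα.le
          rw [hE]; linarith only []
  have hE1 : 1 ≤ E := by
    rw [hE]
    have : 0 ≤ (2 * (r:ℝ)) ^ r * D2 ^ α := by positivity
    linarith only [this]
  have hminle : min 1 (ℓ * (h / Λ) ^ α) ≤ E * min 1 (ℓ / (k.choose r : ℝ)) := by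
    rw [mul_min_of_nonneg _ _ hEpos.le]
    apply le_min
    · exact (min_le_left _ _).trans (by linarith only [hE1])
    · refine (min_le_right _ _).trans ?_
      calc ℓ * (h / Λ) ^ α ≤ ℓ * (E / (k.choose r : ℝ)) :=
            mul_le_mul_of_nonneg_left hκ hℓ0.le
        _ = E * (ℓ / (k.choose r : ℝ)) := by ring
  calc min c1 c2 * (q * (1 - q) * min 1 (ℓ * (h / Λ) ^ α))
      ≤ c2 * (q * (1 - q) * min 1 (ℓ * (h / Λ) ^ α)) :=
        mul_le_mul_of_nonneg_right (min_le_right _ _) (mul_nonneg hs0.le hmin0)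
    _ ≤ c2 * (q * (E * min 1 (ℓ / (k.choose r : ℝ)))) := by
        apply mul_le_mul_of_nonneg_left _ hc2pos.le
        apply mul_le_mul _ hminle hmin0 hq0.le
        nlinarith only [hq0, hq1]
    _ = q / 2 * min 1 (ℓ / (k.choose r : ℝ)) := by
        rw [hc2]
        field_simp
    _ ≤ width ε (hasClique n r k) := hwid

end Vale.Agent.P063.H601
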