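import Vale.Agent.P063.H601.Up

/-!
# The clique property: second moment, and the width in terms of the location
-/

set_option autoImplicit false

namespace Vale.Agent.P063.H601

open Finset Vale.Agent.P063

/-- A property whose minimal elements have at most `m` edges: lower bound for the width. -/
lemma width_ge {n r m : ℕ} (hm : 0 < m) {P : Set (Edge n r → Bool)} (hP : IsUpperSet P)
    (hne : P.Nonempty) (hne' : P ≠ Set.univ)
    (hmin : ∀ x, ind P x = 1 → ∃ T : Finset (Edge n r), T.card ≤ m ∧ (∀ i ∈ T, x i = true) ∧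
      ∀ y : Edge n r → Bool, (∀ i ∈ T, y i = true) → ind P y = 1)
    {ε : ℝ} (h0 : 0 < ε) (h1 : ε < 1 / 2) :
    critProb (1 / 2) P / 2 * min 1 (Real.log ((1 - ε) / ε) / m) ≤ width ε P := by
  obtain ⟨ha0, ha1, hea⟩ := crit_spec hP hne hne' h0 (by linarith only [h1] : ε < 1)
  obtain ⟨hb0, hb1, heb⟩ := crit_spec hP hne hne' (by linarith only [h1] : 0 < 1 - ε)
    (by linarith only [h0])
  obtain ⟨hq0, hq1, -⟩ := crit_spec hP hne hne' (by norm_num : (0:ℝ) < 1 / 2)
    (by norm_num)
  have haq : critProb ε P ≤ critProb (1 / 2) P := crit_mono hP hne h1.le (by norm_num)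
  have hqb : critProb (1 / 2) P ≤ critProb (1 - ε) P :=
    crit_mono hP hne (by linarith only [h1]) (by linarith only [h0])
  have hw : width ε P = critProb (1 - ε) P - critProb ε P := rfl
  rw [hw]
  set a := critProb ε P with hadef
  set b := critProb (1 - ε) P with hbdef
  set q := critProb (1 / 2) P with hqdef
  have hab : a ≤ b := haq.trans hqb
  have hmpos : (0 : ℝ) < m := by exact_mod_cast hm
  have hanti : AntitoneOn (fun p => mu p P / p ^ m) (Set.Icc a b) := by
    refine antitoneOn_of_deriv_nonpos (convex_Icc a b) ?_ ?_ ?_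
    · refine ContinuousOn.div (mu_continuous P).continuousOn (continuous_pow m).continuousOn ?_
      intro x hx
      have : 0 < x := by linarith only [ha0, hx.1]
      positivity
    · intro x hx
      rw [interior_Icc] at hx
      have hx0 : 0 < x := by linarith only [ha0, hx.1]
      have hx1 : x < 1 := by linarith only [hb1, hx.2]
      have hD' := H291.mu_russo hP hx0 hx1
      exact (hD'.differentiableAt.div (differentiableAt_pow m)
        (by positivity)).differentiableWithinAt
    · intro x hx
      rw [interior_Icc] at hx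
      have hx0 : 0 < x := by linarith only [ha0, hx.1]
      have hx1 : x < 1 := by linarith only [hb1, hx.2]
      obtain ⟨D, hD', hle⟩ := deriv_le hx0 hx1 (ind P) (ind_bool P) m hmin
      rw [← mu_fun] at hD'
      rw [← mu_eq] at hle
      have hdiv := hD'.div (hasDerivAt_pow m x) (by positivity)
      rw [show (fun p => mu p P / p ^ m) = (fun p => mu p P) / (fun p => p ^ m) from rfl,
        hdiv.deriv]
      apply div_nonpos_of_nonpos_of_nonneg _ (by positivity)
      obtain ⟨k, rfl⟩ : ∃ k, m = k + 1 := ⟨m - 1, by omega⟩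
      have hxk : 0 ≤ x ^ k := by positivity
      simp only [Nat.add_sub_cancel]
      have : D * x ^ (k + 1) - mu x P * (((k + 1 : ℕ) : ℝ) * x ^ k)
          = x ^ k * (x * D - ((k + 1 : ℕ) : ℝ) * mu x P) := by ring
      rw [this]
      exact mul_nonpos_of_nonneg_of_nonpos hxk (by linarith only [hle])
  have h5 := hanti (Set.left_mem_Icc.2 hab) (Set.right_mem_Icc.2 hab) hab
  simp only [hea, heb] at h5
  rw [div_le_div_iff₀ (by positivity) (by positivity)] at h5
  have h3 : (1 - ε) / ε ≤ (b / a) ^ m := by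
    rw [div_pow, div_le_div_iff₀ h0 (by positivity)]
    linarith only [h5]
  have h4 : Real.log ((1 - ε) / ε) ≤ m * Real.log (b / a) := by
    rw [← Real.log_pow]
    refine Real.log_le_log ?_ h3
    exact div_pos (by linarith only [h1]) h0
  have h6 : Real.log (b / a) ≤ b / a - 1 := Real.log_le_sub_one_of_pos (by positivity)
  have hlog : 0 < Real.log ((1 - ε) / ε) := by
    apply Real.log_pos
    rw [lt_div_iff₀ h0]
    linarith only [h1]
  set ℓ := Real.log ((1 - ε) / ε) with hℓ
  have h7 : ℓ * a ≤ m * (b - a) := by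
    have : ℓ ≤ m * (b / a - 1) := h4.trans (mul_le_mul_of_nonneg_left h6 hmpos.le)
    rw [div_sub_one ha0.ne', mul_div_assoc', le_div_iff₀ ha0] at this
    exact this
  rcases le_total (q / 2) a with hc | hc
  · calc q / 2 * min 1 (ℓ / m) ≤ a * (ℓ / m) :=
          mul_le_mul hc (min_le_right _ _) (le_min zero_le_one (by positivity)) ha0.le
      _ ≤ b - a := by
          rw [mul_div_assoc', div_le_iff₀ hmpos]
          linarith only [h7]
  · have h8 : q / 2 ≤ b - a := by linarith only [hc, hqb]
    calc q / 2 * min 1 (ℓ / m) ≤ q / 2 * 1 :=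
          mul_le_mul_of_nonneg_left (min_le_left _ _) (by positivity)
      _ = q / 2 := mul_one _
      _ ≤ b - a := h8

section second

variable {n r : ℕ}

/-- the vertex number `a` of the block number `i` -/
def vtx {k N : ℕ} (h : k * N ≤ n) (i : Fin k) (a : Fin N) : Fin n :=
  ⟨i.val * N + a.val, by
    have h1 : (i.val + 1) * N ≤ k * N := Nat.mul_le_mul_right N i.isLt
    have h2 : (i.val + 1) * N = i.val * N + N := by ring
    have := a.isLt
    omega⟩

lemma vtx_inj {k N : ℕ} (h : k * N ≤ n) {i i' : Fin k} {a a' : Fin N}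
    (he : vtx h i a = vtx h i' a') : i = i' ∧ a = a' := by
  have h1 : i.val * N + a.val = i'.val * N + a'.val := congrArg Fin.val he
  have hN : 0 < N := lt_of_le_of_lt (Nat.zero_le _) a.isLt
  have h2 : i.val = i'.val := by
    have e1 : (a.val + N * i.val) / N = i.val := by
      rw [Nat.add_mul_div_left _ _ hN, Nat.div_eq_of_lt a.isLt, zero_add]
    have e2 : (a'.val + N * i'.val) / N = i'.val := by
      rw [Nat.add_mul_div_left _ _ hN, Nat.div_eq_of_lt a'.isLt, zero_add]
    have e3 : a.val + N * i.val = a'.val + N * i'.val := by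
      rw [mul_comm N i.val, mul_comm N i'.val]; omega
    rw [← e1, ← e2, e3]
  have h3 : a.val = a'.val := by rw [h2] at h1; omega
  exact ⟨Fin.ext h2, Fin.ext h3⟩

/-- the transversal given by `φ` -/
def KK {k N : ℕ} (h : k * N ≤ n) (φ : Fin k → Fin N) : Finset (Fin n) :=
  Finset.univ.image (fun i => vtx h i (φ i))

lemma KK_card {k N : ℕ} (h : k * N ≤ n) (φ : Fin k → Fin N) : (KK h φ).card = k := by
  unfold KK
  rw [Finset.card_image_of_injective _ (fun i i' he => (vtx_inj h he).1)]
  simp

lemma KK_inter {k N : ℕ} (h : k * N ≤ n) (φ ψ : Fin k → Fin N) :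
    (KK h φ ∩ KK h ψ).card = (Finset.univ.filter (fun i => φ i = ψ i)).card := by
  have e : KK h φ ∩ KK h ψ
      = (Finset.univ.filter (fun i => φ i = ψ i)).image (fun i => vtx h i (φ i)) := by
    ext v
    simp only [KK, Finset.mem_inter, Finset.mem_image, Finset.mem_univ, true_and,
      Finset.mem_filter]
    constructor
    · rintro ⟨⟨i, hi⟩, ⟨i', hi'⟩⟩
      obtain ⟨h1, h2⟩ := vtx_inj h (hi.trans hi'.symm)
      subst h1
      exact ⟨i, h2, hi⟩
    · rintro ⟨i, h1, h2⟩
      exact ⟨⟨i, h2⟩, ⟨i, by rw [← h1]; exact h2⟩⟩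
  rw [e, Finset.card_image_of_injective _ (fun i i' he => (vtx_inj h he).1)]

lemma inside_inter (K K' : Finset (Fin n)) :
    inside r K ∩ inside r K' = inside r (K ∩ K') := by
  ext e
  simp only [inside, Finset.mem_inter, Finset.mem_filter, Finset.mem_univ, true_and,
    Finset.subset_inter_iff]

/-- **second moment** -/
theorem second_moment {k N : ℕ} (hN : 0 < N) (hkN : k * N ≤ n) {p y : ℝ} (h0 : 0 < p)
    (h1 : p < 1) (hyp : ∀ i : ℕ, i ≤ k → 1 ≤ y ^ i * p ^ (i.choose r)) :
    (N : ℝ) ^ k ≤ ((N : ℝ) - 1 + y) ^ k * mu p (hasClique n r k) := by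
  set X : (Fin k → Fin N) → (Edge n r → Bool) → ℝ := fun φ x =>
    if ∀ e ∈ inside r (KK hkN φ), x e = true then 1 else 0 with hX
  set m := k.choose r with hm
  have hEX : ∀ φ, Ex p (X φ) = p ^ m := by
    intro φ
    rw [hX]
    simp only
    rw [Ex_all, card_inside, KK_card]
  have hEXX : ∀ φ ψ, Ex p (fun x => X φ x * X ψ x)
      ≤ p ^ (2 * m) * ∏ i : Fin k, (if φ i = ψ i then y else 1) := by
    intro φ ψ
    have e1 : (fun x => X φ x * X ψ x) = fun x : Edge n r → Bool =>
        if ∀ e ∈ inside r (KK hkN φ) ∪ inside r (KK hkN ψ), x e = true then (1:ℝ) else 0 := by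
      funext x
      simp only [hX, Finset.mem_union]
      by_cases ha : ∀ e ∈ inside r (KK hkN φ), x e = true
      · by_cases hb : ∀ e ∈ inside r (KK hkN ψ), x e = true
        · rw [if_pos ha, if_pos hb, if_pos (fun e he => he.elim (ha e) (hb e))]
          norm_num
        · have hc' : ¬ ∀ e, (e ∈ inside r (KK hkN φ) ∨ e ∈ inside r (KK hkN ψ)) → x e = true :=
            fun hc => hb fun e he => hc e (Or.inr he)
          rw [if_neg hb, if_neg hc', mul_zero]
      · have hc' : ¬ ∀ e, (e ∈ inside r (KK hkN φ) ∨ e ∈ inside r (KK hkN ψ)) → x e = true :=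
          fun hc => ha fun e he => hc e (Or.inl he)
        rw [if_neg ha, if_neg hc', zero_mul]
    rw [e1, Ex_all]
    have hcard : (inside r (KK hkN φ) ∪ inside r (KK hkN ψ)).card
        + ((Finset.univ.filter (fun i => φ i = ψ i)).card).choose r = 2 * m := by
      have := Finset.card_union_add_card_inter (inside r (KK hkN φ)) (inside r (KK hkN ψ))
      rw [inside_inter, card_inside, card_inside, card_inside, KK_card, KK_card,
        KK_inter] at this
      omega
    have hprod : ∏ i : Fin k, (if φ i = ψ i then y else (1:ℝ))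
        = y ^ (Finset.univ.filter (fun i => φ i = ψ i)).card := by
      rw [Finset.prod_ite, Finset.prod_const, Finset.prod_const_one, mul_one]
    rw [hprod, ← hcard]
    have hle : (Finset.univ.filter (fun i => φ i = ψ i)).card ≤ k := by
      have := Finset.card_filter_le (Finset.univ : Finset (Fin k)) (fun i => φ i = ψ i)
      simpa using this
    have h2 := hyp _ hle
    rw [pow_add, mul_assoc]
    have h3 : 0 ≤ p ^ (inside r (KK hkN φ) ∪ inside r (KK hkN ψ)).card := by positivity
    have h4 := mul_le_mul_of_nonneg_left h2 h3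
    rw [mul_one] at h4
    refine h4.trans (le_of_eq ?_)
    ring
  set Z : (Edge n r → Bool) → ℝ := fun x => ∑ φ, X φ x with hZ
  have hEZ : Ex p Z = (N : ℝ) ^ k * p ^ m := by
    rw [hZ, Ex_sum]
    rw [Finset.sum_congr rfl (fun φ _ => hEX φ), Finset.sum_const, nsmul_eq_mul]
    congr 1
    simp
  have hEZ2 : Ex p (fun x => Z x ^ 2)
      ≤ p ^ (2 * m) * ((N : ℝ) ^ k * ((N : ℝ) - 1 + y) ^ k) := by
    have e1 : (fun x => Z x ^ 2) = fun x => ∑ φ, ∑ ψ, X φ x * X ψ x := by
      funext x
      rw [hZ]
      simp only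
      rw [sq, Finset.sum_mul_sum]
    rw [e1, Ex_sum]
    have e2 : ∀ φ : Fin k → Fin N, Ex p (fun x => ∑ ψ, X φ x * X ψ x)
        ≤ p ^ (2 * m) * ((N : ℝ) - 1 + y) ^ k := by
      intro φ
      rw [Ex_sum]
      calc _ ≤ ∑ ψ : Fin k → Fin N, p ^ (2 * m) * ∏ i : Fin k, (if φ i = ψ i then y else 1) :=
            Finset.sum_le_sum fun ψ _ => hEXX φ ψ
        _ = p ^ (2 * m) * ∏ i : Fin k, ∑ b : Fin N, (if φ i = b then y else 1) := by
            rw [← Finset.mul_sum]
            congr 1
            have := Finset.prod_univ_sum (fun _ : Fin k => (Finset.univ : Finset (Fin N)))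
              (fun i b => if φ i = b then y else (1:ℝ))
            rw [Fintype.piFinset_univ] at this
            exact this.symm
        _ = p ^ (2 * m) * ((N : ℝ) - 1 + y) ^ k := by
            congr 1
            have e3 : ∀ i : Fin k, ∑ b : Fin N, (if φ i = b then y else (1:ℝ))
                = (N : ℝ) - 1 + y := by
              intro i
              have e4 : ∀ b : Fin N, (if φ i = b then y else (1:ℝ))
                  = 1 + (if φ i = b then y - 1 else 0) := by
                intro b; split_ifs <;> ring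
              rw [Finset.sum_congr rfl (fun b _ => e4 b), Finset.sum_add_distrib,
                Finset.sum_ite_eq]
              simp
              ring
            rw [Finset.prod_congr rfl (fun i _ => e3 i), Finset.prod_const]
            simp
    calc _ ≤ ∑ φ : Fin k → Fin N, p ^ (2 * m) * ((N : ℝ) - 1 + y) ^ k :=
          Finset.sum_le_sum fun φ _ => e2 φ
      _ = _ := by
          rw [Finset.sum_const, nsmul_eq_mul]
          simp
          ring
  have hZind : (fun x => Z x * ind (hasClique n r k) x) = Z := by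
    funext x
    by_cases hx : x ∈ hasClique n r k
    · unfold ind
      rw [if_pos hx, mul_one]
    · have hz : Z x = 0 := by
        rw [hZ]
        refine Finset.sum_eq_zero fun φ _ => ?_
        rw [hX]
        simp only
        rw [if_neg]
        intro hc
        apply hx
        refine ⟨KK hkN φ, KK_card hkN φ, fun e he => hc e ?_⟩
        simp only [inside, Finset.mem_filter, Finset.mem_univ, true_and]
        exact he
      rw [hz, zero_mul]
  have hcs := Ex_cs h0.le h1.le Z (ind (hasClique n r k))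
  rw [hZind] at hcs
  have hind2 : (fun x => ind (hasClique n r k) x ^ 2) = ind (hasClique n r k) := by
    funext x
    rcases ind_bool (hasClique n r k) x with h | h <;> rw [h] <;> norm_num
  rw [hind2, ← mu_eq, hEZ] at hcs
  have hmu0 := mu_nonneg h0.le h1.le (hasClique n r k)
  have h5 : ((N : ℝ) ^ k * p ^ m) ^ 2
      ≤ (p ^ (2 * m) * ((N : ℝ) ^ k * ((N : ℝ) - 1 + y) ^ k)) * mu p (hasClique n r k) :=
    hcs.trans (mul_le_mul_of_nonneg_right hEZ2 hmu0)
  have hNpos : (0:ℝ) < N := by exact_mod_cast hN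
  have hpos : 0 < p ^ (2 * m) * (N : ℝ) ^ k := by positivity
  have h6 : (p ^ (2 * m) * (N : ℝ) ^ k) * (N : ℝ) ^ k
      ≤ (p ^ (2 * m) * (N : ℝ) ^ k) * (((N : ℝ) - 1 + y) ^ k * mu p (hasClique n r k)) := by
    calc (p ^ (2 * m) * (N : ℝ) ^ k) * (N : ℝ) ^ k = ((N : ℝ) ^ k * p ^ m) ^ 2 := by
          ring
      _ ≤ _ := h5
      _ = _ := by ring
  exact le_of_mul_le_mul_left h6 hpos

/-- the clique property has probability at least `1/2` -/
lemma clique_half {k N : ℕ} (hN : 0 < N) (hkN : k * N ≤ n) {p y : ℝ} (h0 : 0 < p)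
    (h1 : p < 1) (hy : 1 ≤ y) (hyp : ∀ i : ℕ, i ≤ k → 1 ≤ y ^ i * p ^ (i.choose r))
    (hsize : 2 * k * y ≤ N) : 1 / 2 ≤ mu p (hasClique n r k) := by
  have h := second_moment (r := r) hN hkN h0 h1 hyp
  have hNpos : (0:ℝ) < N := by exact_mod_cast hN
  have hmu0 := mu_nonneg h0.le h1.le (hasClique n r k)
  have h2 : ((N : ℝ) - 1 + y) ^ k ≤ 2 * (N:ℝ) ^ k := by
    have e1 : (N : ℝ) - 1 + y ≤ N * Real.exp (y / N) := by
      have := Real.add_one_le_exp (y / N)
      calc (N : ℝ) - 1 + y ≤ N * (y / N + 1) := by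
            rw [mul_add, mul_div_cancel₀ _ hNpos.ne']
            linarith only []
        _ ≤ _ := mul_le_mul_of_nonneg_left this hNpos.le
    have e2 : (0:ℝ) ≤ (N : ℝ) - 1 + y := by
      have : (1:ℝ) ≤ N := by exact_mod_cast hN
      linarith only [this, hy]
    calc ((N : ℝ) - 1 + y) ^ k ≤ (N * Real.exp (y / N)) ^ k := pow_le_pow_left₀ e2 e1 k
      _ = (N:ℝ) ^ k * Real.exp (k * (y / N)) := by
          rw [mul_pow, ← Real.exp_nat_mul]
      _ ≤ (N:ℝ) ^ k * 2 := by
          apply mul_le_mul_of_nonneg_left _ (by positivity)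
          have e3 : (k:ℝ) * (y / N) ≤ 1 / 2 := by
            rw [mul_div_assoc', div_le_iff₀ hNpos]
            linarith only [hsize]
          have e4 : Real.exp (1 / 2) ≤ 2 := by
            have h3 : Real.exp (1 / 2) * Real.exp (1 / 2) = Real.exp 1 := by
              rw [← Real.exp_add]; norm_num
            have h4 := Real.exp_one_lt_d9
            have h5 := Real.exp_pos (1 / 2)
            nlinarith only [h3, h4, h5]
          exact (Real.exp_le_exp.2 e3).trans e4
      _ = _ := by ring
  have h3 : (N:ℝ) ^ k * (1:ℝ) ≤ (N:ℝ) ^ k * (2 * mu p (hasClique n r k)) := by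
    calc (N:ℝ) ^ k * (1:ℝ) = (N:ℝ) ^ k := mul_one _
      _ ≤ _ := h
      _ ≤ (2 * (N:ℝ) ^ k) * mu p (hasClique n r k) := mul_le_mul_of_nonneg_right h2 hmu0
      _ = _ := by ring
  have h4 := le_of_mul_le_mul_left h3 (by positivity)
  linarith only [h4]

end second

end Vale.Agent.P063.H601
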