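import Vale.Agent.P063.H601.Amp
import Vale.Agent.P063.H601.Scale

/-!
# The width in terms of the location, uniformly in `ε`
-/

set_option autoImplicit false

namespace Vale.Agent.P063.H601

open Finset Vale.Agent.P063

variable {n r : ℕ}

/-- A lower bound for the influence between two densities gives an upper bound for their
distance on the logit scale. -/
lemma window' {P : Set (Edge n r → Bool)} (hP : IsUpperSet P) (hne : P.Nonempty)
    (hne' : P ≠ Set.univ) {x y : ℝ} (hx : 0 < x) (hxy : x ≤ y) (hy : y < 1) {M : ℝ}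
    (hM : ∀ p : ℝ, x < p → p < y →
      M * (mu p P * (1 - mu p P)) ≤ p * (1 - p) * totalInfl p P) :
    M * ((Real.log y - Real.log (1 - y)) - (Real.log x - Real.log (1 - x)))
      ≤ (Real.log (mu y P) - Real.log (1 - mu y P))
        - (Real.log (mu x P) - Real.log (1 - mu x P)) := by
  set G : ℝ → ℝ := fun p => (Real.log (mu p P) - Real.log (1 - mu p P))
    - M * (Real.log p - Real.log (1 - p)) with hG
  have hder : ∀ p ∈ Set.Icc x y, HasDerivAt G
      ((totalInfl p P / mu p P - (-totalInfl p P) / (1 - mu p P))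
        - M * (1 / p - (-1) / (1 - p))) p := by
    intro p hp
    have hp0 : 0 < p := by linarith only [hx, hp.1]
    have hp1 : p < 1 := by linarith only [hy, hp.2]
    have hD := H291.mu_russo hP hp0 hp1
    have h1 := mu_pos hP hne hp0 hp1.le
    have h2 := mu_lt_one hP hne' hp0.le hp1
    have e1 : HasDerivAt (fun p : ℝ => Real.log p - Real.log (1 - p))
        (1 / p - (-1) / (1 - p)) p :=
      ((hasDerivAt_id p).log hp0.ne').sub
        (((hasDerivAt_id p).const_sub 1).log (by
          simp only [id_eq]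
          exact (by linarith only [hp1] : (0:ℝ) < 1 - p).ne'))
    exact ((hD.log h1.ne').sub
      ((hD.const_sub 1).log (by linarith only [h2] : (0:ℝ) < 1 - mu p P).ne')).sub
        (e1.const_mul M)
  have hmono : MonotoneOn G (Set.Icc x y) := by
    refine monotoneOn_of_deriv_nonneg (convex_Icc x y) ?_ ?_ ?_
    · intro p hp
      exact (hder p hp).continuousAt.continuousWithinAt
    · intro p hp
      rw [interior_Icc] at hp
      exact (hder p ⟨hp.1.le, hp.2.le⟩).differentiableAt.differentiableWithinAt
    · intro p hp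
      rw [interior_Icc] at hp
      have hp' : p ∈ Set.Icc x y := ⟨hp.1.le, hp.2.le⟩
      rw [(hder p hp').deriv]
      have hp0 : 0 < p := by linarith only [hx, hp.1]
      have hp1 : 0 < 1 - p := by linarith only [hy, hp.2]
      have hm0 := mu_pos hP hne hp0 (by linarith only [hp1])
      have hm1 : 0 < 1 - mu p P := by
        have := mu_lt_one hP hne' hp0.le (by linarith only [hp1])
        linarith only [this]
      have e : (totalInfl p P / mu p P - (-totalInfl p P) / (1 - mu p P))
          - M * (1 / p - (-1) / (1 - p))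
          = (p * (1 - p) * totalInfl p P - M * (mu p P * (1 - mu p P)))
            / ((mu p P * (1 - mu p P)) * (p * (1 - p))) := by
        field_simp
        ring
      rw [e]
      apply div_nonneg _ (by positivity)
      have := hM p hp.1 hp.2
      linarith only [this]
  have hfin := hmono ⟨le_refl x, hxy⟩ ⟨hxy, le_refl y⟩ hxy
  simp only [hG] at hfin
  linarith only [hfin]

/-- the point at logit distance one above `q` -/
lemma shift_spec {q : ℝ} (h0 : 0 < q) (h1 : q < 1) :
    ∃ b : ℝ, q ≤ b ∧ b < 1 ∧
      (Real.log b - Real.log (1 - b)) - (Real.log q - Real.log (1 - q)) = 1 := by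
  set e := Real.exp 1 with he
  have he1 : 1 < e := by
    have := Real.exp_one_gt_d9
    linarith only [this]
  have hden : 0 < 1 - q + e * q := by
    have : 0 < e * q := by positivity
    linarith only [this, h1]
  have h1q : 0 < 1 - q := by linarith only [h1]
  refine ⟨e * q / (1 - q + e * q), ?_, ?_, ?_⟩
  · rw [le_div_iff₀ hden]
    nlinarith only [mul_pos h0 h1q, he1]
  · rw [div_lt_one hden]
    linarith only [h1q]
  · have e1 : 1 - e * q / (1 - q + e * q) = (1 - q) / (1 - q + e * q) := by
      field_simp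
      ring
    rw [e1, Real.log_div (by positivity) hden.ne', Real.log_div h1q.ne' hden.ne',
      Real.log_mul (by positivity) h0.ne', he, Real.log_exp]
    ring

/-- small deviations above `q` -/
lemma up1 {P : Set (Edge n r → Bool)} (hP : IsUpperSet P) (hne : P.Nonempty)
    (hne' : P ≠ Set.univ) {B : ℝ} (hB : 0 < B)
    (hinf : ∀ p : ℝ, 0 < p → p < 1 →
      Real.log (1 / (p * (1 - p)))
        ≤ 2 * Real.log (1 / (critProb (1 / 2) P * (1 - critProb (1 / 2) P))) →
      mu p P * (1 - mu p P) ≤ B * (p * (1 - p) * totalInfl p P))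
    {ε : ℝ} (h0 : 0 < ε) (h1 : ε < 1 / 2) (hBA : B * Real.log ((1 - ε) / ε) < 1) :
    critProb (1 - ε) P - critProb (1 / 2) P
      ≤ 3 * (critProb (1 / 2) P * (1 - critProb (1 / 2) P)
        * (B * Real.log ((1 - ε) / ε))) := by
  obtain ⟨hb0, hb1, hbe⟩ := crit_spec hP hne hne' (by linarith only [h1] : 0 < 1 - ε)
    (by linarith only [h0])
  obtain ⟨hq0, hq1, hqe⟩ := crit_spec hP hne hne' (by norm_num : (0:ℝ) < 1 / 2)
    (by norm_num)
  have hqb : critProb (1 / 2) P ≤ critProb (1 - ε) P :=
    crit_mono hP hne (by linarith only [h1]) (by linarith only [h0])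
  set b := critProb (1 - ε) P with hbdef
  set q := critProb (1 / 2) P with hqdef
  have hh1 := log_inv_gt hq0 hq1
  set h : ℝ := Real.log (1 / (q * (1 - q))) with hh
  have h1ε : 0 < 1 - ε := by linarith only [h1]
  have hA : Real.log ((1 - ε) / ε) = Real.log (1 - ε) - Real.log ε :=
    Real.log_div h1ε.ne' h0.ne'
  obtain ⟨b', hqb', hb'1, hub'⟩ := shift_spec hq0 hq1
  -- everything up to `min b b'` is controlled
  have hctl : ∀ y : ℝ, q ≤ y → y ≤ b → y ≤ b' →
      (Real.log y - Real.log (1 - y)) - (Real.log q - Real.log (1 - q))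
        ≤ B * Real.log ((1 - ε) / ε) := by
    intro y hqy hyb hyb'
    have hy1 : y < 1 := by linarith only [hb1, hyb]
    have hw := window' hP hne hne' hq0 hqy hy1 (M := 1 / B) (by
      intro p hp hp'
      have hp0 : 0 < p := by linarith only [hq0, hp]
      have hp1 : p < 1 := by linarith only [hy1, hp']
      rw [one_div, inv_mul_eq_div, div_le_iff₀ hB]
      have h6 := hinf p hp0 hp1 (by
        have h7 := ls_le hq0 hq1 hp0 hp1
        have m1 := lp_mono hq0 hp.le hp1
        have m2 := lp_mono hp0 (hp'.le.trans hyb') hb'1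
        have h8 : |(Real.log q - Real.log (1 - q)) - (Real.log p - Real.log (1 - p))| ≤ 1 := by
          rw [abs_le]
          constructor
          · linarith only [m1, m2, hub']
          · linarith only [m1, m2, hub']
        have e1 : Real.log (1 / (p * (1 - p))) = - Real.log (p * (1 - p)) := by
          rw [one_div, Real.log_inv]
        have e2 : h = - Real.log (q * (1 - q)) := by
          rw [hh, one_div, Real.log_inv]
        rw [e1]
        linarith only [e2, h7, h8, hh1])
      linarith only [h6])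
    rw [hqe] at hw
    have hmy : mu y P ≤ 1 - ε := by
      rw [← hbe]
      exact mu_monoOn hP ⟨by linarith only [hq0, hqy], hy1.le⟩ ⟨hb0.le, hb1.le⟩ hyb
    have hmy0 := mu_pos hP hne (by linarith only [hq0, hqy] : 0 < y) hy1.le
    have e3 : Real.log (mu y P) - Real.log (1 - mu y P) ≤ Real.log ((1 - ε) / ε) := by
      rw [hA]
      have i1 := Real.log_le_log hmy0 hmy
      have i2 := Real.log_le_log h0 (by linarith only [hmy] : ε ≤ 1 - mu y P)
      linarith only [i1, i2]
    have e4 : Real.log (1 / 2 : ℝ) - Real.log (1 - 1 / 2) = 0 := by norm_num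
    rw [e4, sub_zero, one_div, inv_mul_eq_div, div_le_iff₀ hB] at hw
    calc _ ≤ (Real.log (mu y P) - Real.log (1 - mu y P)) * B := hw
      _ ≤ Real.log ((1 - ε) / ε) * B := mul_le_mul_of_nonneg_right e3 hB.le
      _ = _ := by ring
  have hbb' : b ≤ b' := by
    by_contra hcon
    rw [not_le] at hcon
    have := hctl b' hqb' hcon.le le_rfl
    rw [hub'] at this
    linarith only [this, hBA]
  have hub := hctl b hqb le_rfl hbb'
  have hlin := lin_le hq0 hqb hb1 (D := 3 * (q * (1 - q))) (by
    intro p hp
    have hp0 : 0 < p := by linarith only [hq0, hp.1]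
    have hp1 : p < 1 := by linarith only [hb1, hp.2]
    have hpp : 0 < p * (1 - p) := mul_pos hp0 (by linarith only [hp1])
    have hqq : 0 < q * (1 - q) := mul_pos hq0 (by linarith only [hq1])
    have h7 := ls_le hp0 hp1 hq0 hq1
    have m1 := lp_mono hq0 hp.1 hp1
    have m2 := lp_mono hp0 hp.2 hb1
    have h8 : |(Real.log p - Real.log (1 - p)) - (Real.log q - Real.log (1 - q))| ≤ 1 := by
      rw [abs_le]
      constructor
      · linarith only [m1]
      · linarith only [m2, hub, hBA]
    have h9 : Real.log (p * (1 - p)) ≤ Real.log (3 * (q * (1 - q))) := by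
      rw [Real.log_mul (by norm_num) hqq.ne']
      have h10 : 1 ≤ Real.log 3 := by
        rw [Real.le_log_iff_exp_le (by norm_num)]
        have := Real.exp_one_lt_d9
        linarith only [this]
      linarith only [h7, h8, h10]
    exact (Real.log_le_log_iff hpp (by positivity)).1 h9)
  have hqq : 0 < q * (1 - q) := mul_pos hq0 (by linarith only [hq1])
  calc b - q ≤ 3 * (q * (1 - q))
        * ((Real.log b - Real.log (1 - b)) - (Real.log q - Real.log (1 - q))) := hlin
    _ ≤ 3 * (q * (1 - q)) * (B * Real.log ((1 - ε) / ε)) :=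
        mul_le_mul_of_nonneg_left hub (by positivity)
    _ = _ := by ring

/-- all deviations above `q` -/
lemma up2 {P : Set (Edge n r → Bool)} (hP : IsUpperSet P) (hne : P.Nonempty)
    (hne' : P ≠ Set.univ) {B : ℝ} (hB : 0 < B)
    (hinf : ∀ p : ℝ, 0 < p → p < 1 →
      Real.log (1 / (p * (1 - p)))
        ≤ 2 * Real.log (1 / (critProb (1 / 2) P * (1 - critProb (1 / 2) P))) →
      mu p P * (1 - mu p P) ≤ B * (p * (1 - p) * totalInfl p P))
    {ε : ℝ} (h0 : 0 < ε) (h1 : ε < 1 / 2) :
    critProb (1 - ε) P - critProb (1 / 2) P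
      ≤ 24 * (critProb (1 / 2) P * (1 - critProb (1 / 2) P)
        * (B * Real.log ((1 - ε) / ε))) := by
  obtain ⟨hb0, hb1, hbe⟩ := crit_spec hP hne hne' (by linarith only [h1] : 0 < 1 - ε)
    (by linarith only [h0])
  obtain ⟨hq0, hq1, hqe⟩ := crit_spec hP hne hne' (by norm_num : (0:ℝ) < 1 / 2)
    (by norm_num)
  have h1ε : 0 < 1 - ε := by linarith only [h1]
  have hA0 : 0 < Real.log ((1 - ε) / ε) := by
    apply Real.log_pos
    rw [lt_div_iff₀ h0]
    linarith only [h1]
  have hqq : 0 < critProb (1 / 2) P * (1 - critProb (1 / 2) P) :=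
    mul_pos hq0 (by linarith only [hq1])
  rcases lt_or_ge (B * Real.log ((1 - ε) / ε)) 1 with hc | hc
  · refine (up1 hP hne hne' hB hinf h0 h1 hc).trans ?_
    have : 0 ≤ critProb (1 / 2) P * (1 - critProb (1 / 2) P)
        * (B * Real.log ((1 - ε) / ε)) := by positivity
    linarith only [this]
  -- large deviations
  have hsm : critProb (1 / 2) P * (1 - critProb (1 / 2) P)
      ≤ critProb (1 / 2) P * (1 - critProb (1 / 2) P) * (B * Real.log ((1 - ε) / ε)) :=
    le_mul_of_one_le_right hqq.le hc
  rcases le_or_gt (1 / 2) (critProb (1 / 2) P) with hqh | hqh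
  · -- `q ≥ 1/2`
    have e1 : 1 - critProb (1 / 2) P
        ≤ 2 * (critProb (1 / 2) P * (1 - critProb (1 / 2) P)) := by
      nlinarith only [hqh, hq1]
    linarith only [hb1, e1, hsm, hqq]
  -- `q < 1/2`
  have hq2 : critProb (1 / 2) P ≤ 2 * (critProb (1 / 2) P * (1 - critProb (1 / 2) P)) := by
    nlinarith only [hqh, hq0]
  set A := Real.log ((1 - ε) / ε) with hA
  rcases lt_or_ge A 1 with hA1 | hA1
  · -- `ε > 1/4`
    have hε4 : 1 / 4 ≤ ε := by
      have h3 : (1 - ε) / ε < 3 := by
        have h4 : (1 - ε) / ε < Real.exp 1 := by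
          rw [← Real.log_lt_iff_lt_exp (by positivity)]
          exact hA1
        have := Real.exp_one_lt_d9
        linarith only [h4, this]
      rw [div_lt_iff₀ h0] at h3
      linarith only [h3]
    have h5 := crit_amp hP hq0.le hq1.le 2 (δ := 1 / 2) (ε := ε) (by rw [hqe]; norm_num)
      (by norm_num; linarith only [hε4])
    push_cast at h5
    linarith only [h5, hq2, hsm, hqq]
  · -- `A ≥ 1`
    have hlogε : Real.log (1 / ε) ≤ 2 * A := by
      have e1 : A = Real.log (1 - ε) + Real.log (1 / ε) := by
        rw [hA, Real.log_div h1ε.ne' h0.ne', one_div, Real.log_inv]; ring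
      have e2 : Real.log (1 / 2) ≤ Real.log (1 - ε) :=
        Real.log_le_log (by norm_num) (by linarith only [h1])
      have e3 : Real.log (1 / 2) = - Real.log 2 := by rw [one_div, Real.log_inv]
      have e4 := Real.log_two_lt_d9
      linarith only [e1, e2, e3, e4, hA1]
    obtain ⟨k, hk⟩ : ∃ k : ℕ, k = ⌊2 * (B * A)⌋₊ + 1 := ⟨_, rfl⟩
    have hBA0 : 0 ≤ 2 * (B * A) := by linarith only [hc]
    have hk1 : 2 * (B * A) < k := by
      rw [hk]; push_cast; exact Nat.lt_floor_add_one _
    have hk2 : (k:ℝ) ≤ 3 * (B * A) := by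
      rw [hk]; push_cast
      have := Nat.floor_le hBA0
      linarith only [this, hc]
    have hkpos : (0:ℝ) < k := by linarith only [hk1, hBA0]
    have hk0 : k ≠ 0 := by rw [hk]; omega
    set δ : ℝ := ε ^ ((k:ℝ)⁻¹) with hδ
    have hδ0 : 0 < δ := Real.rpow_pos_of_pos h0 _
    have hδk : δ ^ k = ε := by
      rw [hδ]; exact Real.rpow_inv_natCast_pow h0.le hk0
    rcases lt_or_ge δ (1 / 2) with hδ1 | hδ1
    · -- intermediate level
      obtain ⟨hd0, hd1, hde⟩ := crit_spec hP hne hne' (by linarith only [hδ1] : 0 < 1 - δ)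
        (by linarith only [hδ0])
      have hlogδ : Real.log ((1 - δ) / δ) ≤ 2 * A / k := by
        have e1 : Real.log ((1 - δ) / δ) ≤ Real.log (1 / δ) :=
          Real.log_le_log (div_pos (by linarith only [hδ1]) hδ0)
            (div_le_div_of_nonneg_right (by linarith only [hδ0]) hδ0.le)
        have e2 : Real.log (1 / δ) = (k:ℝ)⁻¹ * Real.log (1 / ε) := by
          rw [hδ, one_div, Real.log_inv, Real.log_rpow h0, one_div, Real.log_inv]
          ring
        rw [e2] at e1
        refine e1.trans ?_
        rw [inv_mul_eq_div]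
        exact div_le_div_of_nonneg_right hlogε hkpos.le
      have hBδ : B * Real.log ((1 - δ) / δ) < 1 := by
        calc B * Real.log ((1 - δ) / δ) ≤ B * (2 * A / k) :=
              mul_le_mul_of_nonneg_left hlogδ hB.le
          _ = (2 * (B * A)) / k := by ring
          _ < 1 := by rw [div_lt_one hkpos]; exact hk1
      have h6 := up1 hP hne hne' hB hinf hδ0 hδ1 hBδ
      have h7 := crit_amp hP hd0.le hd1.le k (δ := δ) (ε := ε)
        (by rw [hde]; linarith only []) hδk.le
      have h8 : critProb (1 - δ) P ≤ 4 * critProb (1 / 2) P := by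
        have e1 : critProb (1 / 2) P * (1 - critProb (1 / 2) P)
            * (B * Real.log ((1 - δ) / δ)) ≤ critProb (1 / 2) P * 1 * 1 := by
          have hlogδ0 : 0 ≤ Real.log ((1 - δ) / δ) := by
            apply Real.log_nonneg
            rw [le_div_iff₀ hδ0]; linarith only [hδ1]
          apply mul_le_mul _ hBδ.le (by positivity) (by linarith only [hq0])
          apply mul_le_mul_of_nonneg_left (by linarith only [hq0]) hq0.le
        linarith only [h6, e1]
      calc critProb (1 - ε) P - critProb (1 / 2) P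
          ≤ k * critProb (1 - δ) P - critProb (1 / 2) P := by linarith only [h7]
        _ ≤ k * critProb (1 - δ) P := by linarith only [hq0]
        _ ≤ (3 * (B * A)) * (4 * critProb (1 / 2) P) :=
            mul_le_mul hk2 h8 hd0.le (by linarith only [hBA0])
        _ ≤ (3 * (B * A)) * (4 * (2 * (critProb (1 / 2) P * (1 - critProb (1 / 2) P)))) := by
            apply mul_le_mul_of_nonneg_left _ (by linarith only [hBA0])
            linarith only [hq2]
        _ = _ := by ring
    · -- the level `1/2` is enough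
      have h7 := crit_amp hP hq0.le hq1.le k (δ := 1 / 2) (ε := ε)
        (by rw [hqe]; norm_num) (by
          rw [← hδk]
          exact pow_le_pow_left₀ (by norm_num) hδ1 k)
      calc critProb (1 - ε) P - critProb (1 / 2) P
          ≤ k * critProb (1 / 2) P := by linarith only [h7, hq0]
        _ ≤ (3 * (B * A)) * (2 * (critProb (1 / 2) P * (1 - critProb (1 / 2) P))) :=
            mul_le_mul hk2 hq2 hq0.le (by linarith only [hBA0])
        _ ≤ _ := by
            have : 0 ≤ (B * A) * (critProb (1 / 2) P * (1 - critProb (1 / 2) P)) := by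
              positivity
            linarith only [this]

/-- **The width in terms of the location `q = p_{1/2}(P)`, uniformly in `ε`** -/
theorem width_unif (hr : 2 ≤ r) :
    ∃ C : ℝ, 0 < C ∧ ∀ n : ℕ, r ≤ n → ∀ P : Set (Edge n r → Bool),
      IsProperty P → IsUpperSet P → P.Nonempty → P ≠ Set.univ →
      ∀ ε : ℝ, 0 < ε → ε < 1 / 2 →
      width ε P ≤ C * (critProb (1 / 2) P * (1 - critProb (1 / 2) P)
        * (Real.log ((1 - ε) / ε)
          * (Real.log (1 / (critProb (1 / 2) P * (1 - critProb (1 / 2) P))) / Real.log n)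
            ^ ((r : ℝ) / ((r : ℝ) - 1)))) := by
  obtain ⟨C, hC, hinf⟩ := infl_p hr
  have hr2 : (2 : ℝ) ≤ r := by exact_mod_cast hr
  have hr1 : (0 : ℝ) < (r : ℝ) - 1 := by linarith only [hr2]
  set α : ℝ := (r : ℝ) / ((r : ℝ) - 1) with hα
  have hα0 : 0 ≤ α := by rw [hα]; positivity
  have hα2 : α ≤ 2 := by rw [hα, div_le_iff₀ hr1]; linarith only [hr2]
  refine ⟨192 * C, by positivity, fun n hrn P h2 h3 h4 h5 ε h0 h1 => ?_⟩
  have hn2 : (2:ℝ) ≤ n := by exact_mod_cast (le_trans hr hrn)
  have hl0 : 0 < Real.log n := Real.log_pos (by linarith only [hn2])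
  have hlα0 : 0 < Real.log n ^ α := Real.rpow_pos_of_pos hl0 _
  -- the inequality in the form used above, for every property with the given location
  have key : ∀ Q : Set (Edge n r → Bool), IsProperty Q → IsUpperSet Q → Q.Nonempty →
      Q ≠ Set.univ → critProb (1 - ε) Q - critProb (1 / 2) Q
        ≤ 24 * (critProb (1 / 2) Q * (1 - critProb (1 / 2) Q)
          * (4 * C * (Real.log (1 / (critProb (1 / 2) Q * (1 - critProb (1 / 2) Q)))
            / Real.log n) ^ α * Real.log ((1 - ε) / ε))) := by
    intro Q hQ1 hQ2 hQ3 hQ4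
    obtain ⟨hq0, hq1, -⟩ := crit_spec hQ2 hQ3 hQ4 (by norm_num : (0:ℝ) < 1 / 2)
      (by norm_num)
    have hh1 := log_inv_gt hq0 hq1
    set h : ℝ := Real.log (1 / (critProb (1 / 2) Q * (1 - critProb (1 / 2) Q))) with hh
    have hκ : 0 < (h / Real.log n) ^ α :=
      Real.rpow_pos_of_pos (div_pos (by linarith only [hh1]) hl0) _
    refine up2 hQ2 hQ3 hQ4 (B := 4 * C * (h / Real.log n) ^ α) (by positivity) ?_ h0 h1
    intro p hp0 hp1 hp
    have hpp : 0 < p * (1 - p) := mul_pos hp0 (by linarith only [hp1])
    have hT := H291.totalInfl_nonneg (n := n) (r := r) hp0.le hp1.le Q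
    have h6 := hinf n hrn Q hQ1 p hp0 hp1
    have h7 := log_inv_gt hp0 hp1
    have h8 : Real.log (1 / (p * (1 - p))) ^ α ≤ 4 * h ^ α := by
      calc Real.log (1 / (p * (1 - p))) ^ α ≤ (2 * h) ^ α :=
            Real.rpow_le_rpow (by linarith only [h7]) hp hα0
        _ = 2 ^ α * h ^ α := Real.mul_rpow (by norm_num) (by linarith only [hh1])
        _ ≤ 4 * h ^ α := by
            apply mul_le_mul_of_nonneg_right _
              (Real.rpow_nonneg (by linarith only [hh1]) _)
            calc (2:ℝ) ^ α ≤ (2:ℝ) ^ (2:ℝ) :=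
                  Real.rpow_le_rpow_of_exponent_le (by norm_num) hα2
              _ = 4 := by rw [Real.rpow_two]; norm_num
    have h9 : Real.log n ^ α * (mu p Q * (1 - mu p Q))
        ≤ Real.log n ^ α * (4 * C * (h / Real.log n) ^ α * (p * (1 - p) * totalInfl p Q)) := by
      calc Real.log n ^ α * (mu p Q * (1 - mu p Q))
          ≤ C * (p * (1 - p) * Real.log (1 / (p * (1 - p))) ^ α) * totalInfl p Q := h6
        _ = Real.log (1 / (p * (1 - p))) ^ α * (C * (p * (1 - p) * totalInfl p Q)) := by ring
        _ ≤ (4 * h ^ α) * (C * (p * (1 - p) * totalInfl p Q)) :=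
            mul_le_mul_of_nonneg_right h8 (mul_nonneg hC.le (mul_nonneg hpp.le hT))
        _ = _ := by
            rw [Real.div_rpow (by linarith only [hh1]) hl0.le]
            field_simp
    exact le_of_mul_le_mul_left h9 hlα0
  have k1 := key P h2 h3 h4 h5
  have k2 := key (dual P) (dual_property h2) (dual_upper h3) (dual_nonempty h5)
    (dual_ne_univ h4)
  rw [crit_dual h3 h4 h5 (by linarith only [h1] : 0 < 1 - ε) (by linarith only [h0]),
    crit_dual h3 h4 h5 (by norm_num : (0:ℝ) < 1 / 2) (by norm_num), sub_sub_cancel] at k2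
  have e1 : (1:ℝ) - 1 / 2 = 1 / 2 := by norm_num
  rw [e1, sub_sub_cancel, mul_comm (1 - critProb (1 / 2) P) (critProb (1 / 2) P)] at k2
  unfold width
  set κ : ℝ := (Real.log (1 / (critProb (1 / 2) P * (1 - critProb (1 / 2) P)))
    / Real.log n) ^ α with hκ
  calc critProb (1 - ε) P - critProb ε P
      = (critProb (1 - ε) P - critProb (1 / 2) P)
        + (1 - critProb ε P - (1 - critProb (1 / 2) P)) := by ring
    _ ≤ _ := add_le_add k1 k2
    _ = _ := by ring

end Vale.Agent.P063.H601
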