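import Vale.Agent.P063.H601.Infl

/-!
# Critical probabilities and the logit scale
-/

set_option autoImplicit false

namespace Vale.Agent.P063.H601

open Finset Vale.Agent.P063

section crit

variable {n r : ℕ}

lemma mu_zero {P : Set (Edge n r → Bool)} (hP : IsUpperSet P) (hne : P ≠ Set.univ) :
    mu 0 P = 0 := by
  unfold mu
  refine Finset.sum_eq_zero fun x _ => ?_
  split_ifs with hx
  · obtain ⟨e, he⟩ : ∃ e, x e = true := by
      by_contra hc
      push Not at hc
      apply hne
      apply Set.eq_univ_of_forall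
      intro y
      refine hP ?_ hx
      intro e
      have := hc e
      simp only [ne_eq, Bool.not_eq_true] at this
      rw [this]
      exact Bool.false_le (y e)
    apply prod_eq_zero (mem_univ e)
    simp [he]
  · rfl

/-- `mu_{p_a(P)}(P) = a` -/
lemma crit_spec {P : Set (Edge n r → Bool)} (hP : IsUpperSet P) (hne : P.Nonempty)
    (hne' : P ≠ Set.univ) {a : ℝ} (ha0 : 0 < a) (ha1 : a < 1) :
    0 < critProb a P ∧ critProb a P < 1 ∧ mu (critProb a P) P = a := by
  set S : Set ℝ := {p : ℝ | 0 ≤ p ∧ p ≤ 1 ∧ a ≤ mu p P} with hS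
  have hcl : IsClosed S := by
    have : S = Set.Ici 0 ∩ (Set.Iic 1 ∩ {p | a ≤ mu p P}) := by
      ext p; simp only [hS, Set.mem_ofPred_eq, Set.mem_inter_iff, Set.mem_Ici, Set.mem_Iic]
    rw [this]
    exact isClosed_Ici.inter (isClosed_Iic.inter (isClosed_le continuous_const (mu_continuous P)))
  have hmem : critProb a P ∈ S :=
    hcl.csInf_mem ⟨1, crit_nonempty hP hne ha1.le⟩ (crit_bdd P a)
  obtain ⟨hm0, hm1, hm2⟩ := hmem
  obtain ⟨p, hp, hpa⟩ : ∃ p ∈ Set.Icc (0:ℝ) 1, mu p P = a := by
    have := intermediate_value_Icc (zero_le_one (α := ℝ))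
      (f := fun p => mu p P) (mu_continuous P).continuousOn
    have h2 : a ∈ Set.Icc (mu 0 P) (mu 1 P) := by
      rw [mu_zero hP hne', mu_one hP hne]
      exact ⟨ha0.le, ha1.le⟩
    obtain ⟨p, hp, hpa⟩ := this h2
    exact ⟨p, hp, hpa⟩
  have hle : critProb a P ≤ p := csInf_le (crit_bdd P a) ⟨hp.1, hp.2, hpa.ge⟩
  have hmu : mu (critProb a P) P = a := by
    apply le_antisymm _ hm2
    have := mu_monoOn hP ⟨hm0, hm1⟩ hp hle
    simp only [hpa] at this
    exact this
  refine ⟨lt_of_le_of_ne hm0 ?_, lt_of_le_of_ne hm1 ?_, hmu⟩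
  · intro h
    rw [← h, mu_zero hP hne'] at hmu
    linarith only [hmu, ha0]
  · intro h
    rw [h, mu_one hP hne] at hmu
    linarith only [hmu, ha1]

lemma crit_mono {P : Set (Edge n r → Bool)} (hP : IsUpperSet P) (hne : P.Nonempty)
    {a b : ℝ} (hab : a ≤ b) (hb : b ≤ 1) : critProb a P ≤ critProb b P := by
  unfold critProb
  refine csInf_le_csInf (crit_bdd P a) ⟨1, crit_nonempty hP hne hb⟩ ?_
  intro p hp
  exact ⟨hp.1, hp.2.1, hab.trans hp.2.2⟩

end crit

/-- `log (x (1 - x))` varies at most as fast as the logit -/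
lemma ls_le {x y : ℝ} (hx0 : 0 < x) (hx1 : x < 1) (hy0 : 0 < y) (hy1 : y < 1) :
    Real.log (x * (1 - x)) - Real.log (y * (1 - y))
      ≤ |(Real.log x - Real.log (1 - x)) - (Real.log y - Real.log (1 - y))| := by
  have hx1' : 0 < 1 - x := by linarith only [hx1]
  have hy1' : 0 < 1 - y := by linarith only [hy1]
  rw [Real.log_mul hx0.ne' hx1'.ne', Real.log_mul hy0.ne' hy1'.ne']
  rcases le_total y x with h | h
  · refine le_trans ?_ (le_abs_self _)
    have := Real.log_le_log hx1' (by linarith only [h] : 1 - x ≤ 1 - y)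
    linarith only [this]
  · refine le_trans ?_ (neg_le_abs _)
    have := Real.log_le_log hx0 h
    linarith only [this]

/-- the logit is monotone -/
lemma lp_mono {x y : ℝ} (hx0 : 0 < x) (hxy : x ≤ y) (hy1 : y < 1) :
    Real.log x - Real.log (1 - x) ≤ Real.log y - Real.log (1 - y) := by
  have h1 := Real.log_le_log hx0 hxy
  have h2 := Real.log_le_log (by linarith only [hy1] : (0:ℝ) < 1 - y)
    (by linarith only [hxy] : 1 - y ≤ 1 - x)
  linarith only [h1, h2]

/-- from the logit scale back to the linear scale -/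
lemma lin_le {a b D : ℝ} (ha0 : 0 < a) (hab : a ≤ b) (hb1 : b < 1)
    (hD : ∀ p ∈ Set.Icc a b, p * (1 - p) ≤ D) :
    b - a ≤ D * ((Real.log b - Real.log (1 - b)) - (Real.log a - Real.log (1 - a))) := by
  set F : ℝ → ℝ := fun p => D * (Real.log p - Real.log (1 - p)) - p with hF
  have hder : ∀ p ∈ Set.Icc a b, HasDerivAt F (D * (1 / p - (-1) / (1 - p)) - 1) p := by
    intro p hp
    have hp0 : 0 < p := by linarith only [ha0, hp.1]
    have hp1 : p < 1 := by linarith only [hb1, hp.2]
    have e1 : HasDerivAt (fun p : ℝ => Real.log p - Real.log (1 - p))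
        (1 / p - (-1) / (1 - p)) p :=
      ((hasDerivAt_id p).log hp0.ne').sub
        (((hasDerivAt_id p).const_sub 1).log (by
          simp only [id_eq]
          exact (by linarith only [hp1] : (0:ℝ) < 1 - p).ne'))
    exact (e1.const_mul D).sub (hasDerivAt_id p)
  have hmono : MonotoneOn F (Set.Icc a b) := by
    refine monotoneOn_of_deriv_nonneg (convex_Icc a b) ?_ ?_ ?_
    · intro p hp
      exact (hder p hp).continuousAt.continuousWithinAt
    · intro p hp
      rw [interior_Icc] at hp
      exact (hder p ⟨hp.1.le, hp.2.le⟩).differentiableAt.differentiableWithinAt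
    · intro p hp
      rw [interior_Icc] at hp
      have hp' : p ∈ Set.Icc a b := ⟨hp.1.le, hp.2.le⟩
      rw [(hder p hp').deriv]
      have hp0 : 0 < p := by linarith only [ha0, hp.1]
      have hp1 : 0 < 1 - p := by linarith only [hb1, hp.2]
      have e : D * (1 / p - (-1) / (1 - p)) - 1 = (D - p * (1 - p)) / (p * (1 - p)) := by
        field_simp
        ring
      rw [e]
      apply div_nonneg _ (by positivity)
      have := hD p hp'
      linarith only [this]
  have hfin := hmono ⟨le_refl a, hab⟩ ⟨hab, le_refl b⟩ hab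
  simp only [hF] at hfin
  linarith only [hfin]

end Vale.Agent.P063.H601
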